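import Vale.Agent.P108.H462.NonPeaky
import Vale.Agent.P108.H504.Cont

/-!
# P108, block [DET] (helper462), file 7: bridge to helper504's continuants, growth in logarithmic form
-/

open Set

namespace Vale.Agent.P108.H462

open P108C

variable {a : ℤ → ℝ} {X : Set ℤ}

theorem W_eq_S (a : ℤ → ℝ) (i : ℤ) : ∀ n : ℕ, W a i n = H504.S a i n
  | 0 => rfl
  | 1 => rfl
  | n + 2 => by rw [W, H504.S_succ, W_eq_S a i (n + 1), W_eq_S a i n]

/-- half-open windows versus closed windows -/
theorem D_eq (a : ℤ → ℝ) (i j : ℤ) : D a i j = H504.D a i (j - 1) := by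
  unfold D H504.D
  rw [W_eq_S]
  congr 1
  congr 1
  ring

theorem D504_eq (a : ℤ → ℝ) (i j : ℤ) : H504.D a i j = D a i (j + 1) := by
  rw [D_eq, add_sub_cancel_right]

/-- the weights are at least `L` outside `X ∪ N` -/
theorem pow_le_Wt' {L : ℝ} {N : Set ℤ} (hL : 1 ≤ L) {u v : ℤ} (huv : u ≤ v)
    (h1 : ∀ t, u ≤ t → t < v → t ∉ X → 2 ≤ |a t|)
    (h2 : ∀ t, u ≤ t → t < v → t ∉ N → 2 * L ≤ |a t|) :
    L ^ (v - u).toNat ≤ Wt a X u v * L ^ (ms X u v + ms N u v) := by
  obtain ⟨m, rfl⟩ := Int.le.dest huv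
  clear huv
  have hm : (u + (m : ℤ) - u).toNat = m := by omega
  rw [hm]
  clear hm
  induction m with
  | zero =>
    simp only [Nat.cast_zero, add_zero, pow_zero]
    rw [Wt_empty le_rfl, one_mul]
    exact one_le_pow₀ hL
  | succ m ih =>
    have h3 : u + ((m + 1 : ℕ) : ℤ) = u + (m : ℤ) + 1 := by push_cast; ring
    have h4 := ih (fun t h3 h4 h5 => h1 t h3 (by push_cast; omega) h5)
      (fun t h3 h4 h5 => h2 t h3 (by push_cast; omega) h5)
    rw [h3, Wt_succ (by omega), ms_succ (by omega), ms_succ (by omega)]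
    have hL0 : 0 < L := by linarith
    have hW := Wt_nonneg (a := a) (X := X) u (u + m)
    by_cases hX : u + (m : ℤ) ∈ X
    · rw [if_pos hX]
      unfold wt
      rw [if_pos hX, mul_one, pow_succ]
      calc L ^ m * L ≤ (Wt a X u (u + m) * L ^ (ms X u (u + m) + ms N u (u + m))) * L :=
            mul_le_mul_of_nonneg_right h4 hL0.le
        _ = Wt a X u (u + m) * L ^ (ms X u (u + m) + ms N u (u + m) + 1) := by ring
        _ ≤ _ := mul_le_mul_of_nonneg_left (pow_le_pow_right₀ hL (by omega)) hW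
    · rw [if_neg hX]
      unfold wt
      rw [if_neg hX]
      by_cases hN : u + (m : ℤ) ∈ N
      · rw [if_pos hN, pow_succ]
        have h5 := h1 (u + m) (by omega) (by push_cast; omega) hX
        have h6 : (1 : ℝ) ≤ |a (u + m)| / 2 := by linarith
        calc L ^ m * L ≤ (Wt a X u (u + m) * L ^ (ms X u (u + m) + ms N u (u + m))) * L :=
              mul_le_mul_of_nonneg_right h4 hL0.le
          _ = Wt a X u (u + m) * 1 * L ^ (ms X u (u + m) + 0 + (ms N u (u + m) + 1)) := by ring
          _ ≤ Wt a X u (u + m) * (|a (u + m)| / 2) *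
              L ^ (ms X u (u + m) + 0 + (ms N u (u + m) + 1)) := by gcongr
      · rw [if_neg hN, pow_succ]
        have h5 := h2 (u + m) (by omega) (by push_cast; omega) hN
        calc L ^ m * L ≤ (Wt a X u (u + m) * L ^ (ms X u (u + m) + ms N u (u + m))) *
              (|a (u + m)| / 2) :=
              mul_le_mul h4 (by linarith) hL0.le (mul_nonneg hW (by positivity))
          _ = _ := by ring

end Vale.Agent.P108.H462
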