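import Vale.Agent.P108.Cmb.Events

/-!
# P108, block [DET] (helper462), file 2: cutting a window of a closed set at its largest component
-/

open Set
open scoped Classical

namespace Vale.Agent.P108.H462

open P108C

variable {X : Set ℤ} {c c0 : ℝ} {n : ℕ}

/-- sparse seen from the left end -/
def RG (c0 : ℝ) (X : Set ℤ) (i j : ℤ) : Prop :=
  ∀ r, i < r → r ≤ j → (ms X i r : ℝ) ≤ c0 * ((r - i : ℤ) : ℝ)

/-- sparse seen from the right end -/
def LG (c0 : ℝ) (X : Set ℤ) (i j : ℤ) : Prop :=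
  ∀ r, i ≤ r → r < j → (ms X r j : ℝ) ≤ c0 * ((j - r : ℤ) : ℝ)

/-- good window `[i, j)` -/
def Good (c0 : ℝ) (X : Set ℤ) (i j : ℤ) : Prop := RG c0 X i j ∧ LG c0 X i j

theorem RG.mono_right {i j j' : ℤ} (h : RG c0 X i j) (hj : j' ≤ j) : RG c0 X i j' :=
  fun r h1 h2 => h r h1 (h2.trans hj)

theorem LG.mono_left {i i' j : ℤ} (h : LG c0 X i j) (hi : i ≤ i') : LG c0 X i' j :=
  fun r h1 h2 => h r (hi.trans h1) h2

theorem ms_one (i : ℤ) : ms X i (i + 1) = if i ∈ X then 1 else 0 := by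
  unfold ms
  have : Finset.Ico i (i + 1) = {i} := by
    ext t; simp only [Finset.mem_Ico, Finset.mem_singleton]; omega
  rw [this]
  split_ifs with h
  · rw [Finset.filter_singleton, if_pos h]; rfl
  · rw [Finset.filter_singleton, if_neg h]; rfl

theorem ms_succ {i j : ℤ} (h : i ≤ j) : ms X i (j + 1) = ms X i j + if j ∈ X then 1 else 0 := by
  rw [ms_add h (by omega : j ≤ j + 1), ms_one]

theorem ms_full {i j : ℤ} (h : i ≤ j) (hX : ∀ t, i ≤ t → t < j → t ∈ X) :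
    (ms X i j : ℤ) = j - i := by
  unfold ms
  rw [Finset.filter_true_of_mem, Int.card_Ico]
  · omega
  · intro t ht
    rw [Finset.mem_Ico] at ht
    exact hX t ht.1 ht.2

theorem RG.notMem {i j : ℤ} (h : RG c0 X i j) (hij : i < j) (hc0 : c0 < 1) : i ∉ X := by
  intro hi
  have := h (i + 1) (by omega) (by omega)
  rw [ms_one, if_pos hi] at this
  push_cast at this
  linarith

theorem LG.notMem {i j : ℤ} (h : LG c0 X i j) (hij : i < j) (hc0 : c0 < 1) : j - 1 ∉ X := by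
  intro hi
  have := h (j - 1) (by omega) (by omega)
  have e : ms X (j - 1) j = 1 := by
    have := ms_one (X := X) (j - 1)
    rw [sub_add_cancel, if_pos hi] at this
    exact this
  rw [e] at this
  push_cast at this
  linarith

/-- `[p, q)` is a run of `X` -/
def Run (X : Set ℤ) (p q : ℤ) : Prop := ∀ t, p ≤ t → t < q → t ∈ X

/-- a longest run inside `[u, v)` -/
theorem exists_longest {u v : ℤ} (h : ∃ t, u ≤ t ∧ t < v ∧ t ∈ X) :
    ∃ p q : ℤ, u ≤ p ∧ p < q ∧ q ≤ v ∧ Run X p q ∧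
      ∀ p' q' : ℤ, u ≤ p' → p' ≤ q' → q' ≤ v → Run X p' q' → q' - p' ≤ q - p := by
  obtain ⟨t, ht1, ht2, ht3⟩ := h
  set S : Finset (ℤ × ℤ) := ((Finset.Icc u v) ×ˢ (Finset.Icc u v)).filter
    (fun z => z.1 ≤ z.2 ∧ Run X z.1 z.2) with hS
  have htS : (t, t + 1) ∈ S := by
    rw [hS, Finset.mem_filter, Finset.mem_product, Finset.mem_Icc, Finset.mem_Icc]
    refine ⟨⟨⟨ht1, ht2.le⟩, by simp only; omega, by simp only; omega⟩, by simp only; omega, ?_⟩
    intro s hs1 hs2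
    simp only at hs1 hs2
    have : s = t := by omega
    rwa [this]
  obtain ⟨z, hz, hmax⟩ := S.exists_max_image (fun z => z.2 - z.1) ⟨_, htS⟩
  have h1 := hmax _ htS
  rw [hS, Finset.mem_filter, Finset.mem_product, Finset.mem_Icc, Finset.mem_Icc] at hz
  simp only at h1
  refine ⟨z.1, z.2, hz.1.1.1, by omega, hz.1.2.2, hz.2.2, fun p' q' h2 h3 h4 h5 => ?_⟩
  refine hmax (p', q') ?_
  rw [hS, Finset.mem_filter, Finset.mem_product, Finset.mem_Icc, Finset.mem_Icc]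
  exact ⟨⟨⟨h2, h3.trans h4⟩, h2.trans h3, h4⟩, h3, h5⟩

/-- (E): the mass of an interval is at most `2c` times its length plus the longest run. -/
theorem ms_le_longest (hc : 0 < c) (hX : NClosed c n X) {u v : ℤ} (huv : u ≤ v)
    (hn : v - u ≤ n) {ℓ : ℤ} (hℓ : 0 ≤ ℓ)
    (hrun : ∀ p' q' : ℤ, u ≤ p' → p' ≤ q' → q' ≤ v → Run X p' q' → q' - p' ≤ ℓ) :
    (ms X u v : ℝ) ≤ 2 * c * ((v - u : ℤ) : ℝ) + ℓ := by
  rcases eq_or_lt_of_le huv with h | huv'
  · subst h
    rw [ms_eq_zero_of_le le_rfl]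
    have : (0 : ℝ) ≤ ℓ := by exact_mod_cast hℓ
    push_cast
    nlinarith
  by_contra hcon
  push Not at hcon
  set τ : ℝ := c * ((v - u : ℤ) : ℝ) with hτ
  have hτpos : 0 < τ := mul_pos hc (by exact_mod_cast (by omega : (0 : ℤ) < v - u))
  have hℓ' : (0 : ℝ) ≤ ℓ := by exact_mod_cast hℓ
  -- first point with mass at least `τ`
  have hex : ∃ k : ℕ, τ ≤ ms X u (u + k) := by
    refine ⟨(v - u).toNat, ?_⟩
    have : u + ((v - u).toNat : ℤ) = v := by omega
    rw [this]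
    linarith
  set k := Nat.find hex with hk
  have hk1 : τ ≤ ms X u (u + k) := Nat.find_spec hex
  have hk0 : 0 < k := by
    rw [Nat.pos_iff_ne_zero]
    intro h0
    rw [h0] at hk1
    simp only [Nat.cast_zero, add_zero] at hk1
    rw [ms_eq_zero_of_le le_rfl] at hk1
    push_cast at hk1
    linarith
  have hk2 : (ms X u (u + ((k - 1 : ℕ) : ℤ)) : ℝ) < τ := by
    have := Nat.find_min hex (m := k - 1) (by omega)
    push Not at this
    exact this
  have hkv : u + (k : ℤ) ≤ v := by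
    have : k ≤ (v - u).toNat := by
      refine Nat.find_min' hex ?_
      have : u + ((v - u).toNat : ℤ) = v := by omega
      rw [this]
      linarith
    omega
  set b0 : ℤ := u + ((k - 1 : ℕ) : ℤ) with hb0
  have hb0k : u + (k : ℤ) = b0 + 1 := by omega
  rw [hb0k, ms_succ (by omega)] at hk1
  have hb0X : b0 ∈ X := by
    by_contra hno
    rw [if_neg hno, add_zero] at hk1
    linarith
  -- end of the run starting at `b0`
  have hex2 : ∃ k' : ℕ, b0 + 1 + k' = v ∨ b0 + 1 + (k' : ℤ) ∉ X := by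
    refine ⟨(v - b0 - 1).toNat, Or.inl ?_⟩
    omega
  set k' := Nat.find hex2 with hk'
  have hk'1 := Nat.find_spec hex2
  have hk'v : b0 + 1 + (k' : ℤ) ≤ v := by
    have : k' ≤ (v - b0 - 1).toNat := Nat.find_min' hex2 (Or.inl (by omega))
    omega
  set b1 : ℤ := b0 + 1 + (k' : ℤ) with hb1
  have hrun1 : Run X b0 b1 := by
    intro t ht1 ht2
    rcases eq_or_lt_of_le ht1 with h | h
    · rwa [← h]
    · have h3 := Nat.find_min hex2 (m := (t - b0 - 1).toNat) (by omega)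
      push Not at h3
      have h4 : b0 + 1 + ((t - b0 - 1).toNat : ℤ) = t := by omega
      rw [h4] at h3
      exact h3.2
  have hlen := hrun b0 b1 (by omega) (by omega) hk'v hrun1
  have hm1 : (ms X u b1 : ℝ) < τ + ℓ := by
    rw [ms_add (by omega : u ≤ b0) (by omega : b0 ≤ b1)]
    have h5 := ms_full (X := X) (by omega : b0 ≤ b1) hrun1
    have h6 : (ms X b0 b1 : ℝ) = ((b1 - b0 : ℤ) : ℝ) := by exact_mod_cast h5
    push_cast at h6 ⊢
    rw [h6]
    have h7 : ((b1 : ℝ) - b0) ≤ ℓ := by exact_mod_cast hlen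
    linarith
  rcases eq_or_lt_of_le hk'v with h | h
  · rw [h] at hm1
    nlinarith
  · have hb1X : b1 ∉ X := by
      rcases hk'1 with h8 | h8
      · omega
      · exact h8
    have h9 := hX b1 hb1X u v (by omega) h hn
    rw [not_and_or] at h9
    have h10 : c * ((v - u : ℤ) : ℝ) ≤ ms X u b1 := by
      refine hk1.trans ?_
      have h11 : ms X u b0 + (if b0 ∈ X then 1 else 0) ≤ ms X u b1 := by
        rw [← ms_succ (by omega)]
        exact ms_mono' le_rfl (by omega)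
      exact_mod_cast h11
    have h12 : ¬ c * ((v - u : ℤ) : ℝ) ≤ ms X (b1 + 1) v := by
      rcases h9 with h | h
      · exact absurd h10 h
      · exact h
    push Not at h12
    have h13 : ms X u v = ms X u b1 + ms X (b1 + 1) v := by
      rw [ms_add (by omega : u ≤ b1) (by omega : b1 ≤ v),
        ms_add (by omega : b1 ≤ b1 + 1) (by omega : b1 + 1 ≤ v), ms_one, if_neg hb1X, zero_add]
    rw [h13] at hcon
    push_cast at hcon h12
    have h14 : τ = c * ((v : ℝ) - u) := by rw [hτ]; push_cast; ring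
    linarith

/-- sparse seen from the left neighbour of a longest run -/
theorem lg_of_longest (hc : 0 < c) (hc2 : c ≤ 1 / 2) (hX : NClosed c n X) {u v p q : ℤ}
    (hn : v - u ≤ n) (hup : u < p) (hpq : p < q) (hqv : q ≤ v) (hR : Run X p q)
    (hmax : ∀ p' q' : ℤ, u ≤ p' → p' ≤ q' → q' ≤ v → Run X p' q' → q' - p' ≤ q - p)
    (hc0 : 4 * c ≤ c0) : LG c0 X u p := by
  intro r hr1 hr2
  have hprpos : (1 : ℝ) ≤ ((p - r : ℤ) : ℝ) := by exact_mod_cast (by omega : (1 : ℤ) ≤ p - r)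
  have hpX : p - 1 ∉ X := by
    intro hp
    have := hmax (p - 1) q (by omega) (by omega) hqv (by
      intro t ht1 ht2
      rcases eq_or_lt_of_le ht1 with h | h
      · rwa [← h]
      · exact hR t (by omega) ht2)
    omega
  suffices h : (ms X r p : ℝ) ≤ 4 * c * ((p - r : ℤ) : ℝ) by
    refine h.trans (mul_le_mul_of_nonneg_right hc0 (by linarith))
  set x : ℝ := c * ((p - r : ℤ) : ℝ) / (1 - c) with hx
  have h1c : (0 : ℝ) < 1 - c := by linarith
  have hx0 : 0 ≤ x := by positivity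
  have hx2 : x ≤ 2 * (c * ((p - r : ℤ) : ℝ)) := by
    rw [hx, div_le_iff₀ h1c]
    have : 0 ≤ c * ((p - r : ℤ) : ℝ) := by positivity
    nlinarith
  rcases le_or_gt (⌈x⌉ : ℤ) (q - p) with hy | hy
  · -- closedness at `p - 1`
    have hy0 : 0 ≤ ⌈x⌉ := Int.ceil_nonneg hx0
    have hxc : x ≤ (⌈x⌉ : ℝ) := Int.le_ceil x
    have hcx : (⌈x⌉ : ℝ) < x + 1 := Int.ceil_lt_add_one x
    have h9 := hX (p - 1) hpX r (p + ⌈x⌉) (by omega) (by omega) (by omega)
    rw [not_and_or] at h9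
    have hfull := ms_full (X := X) (i := p) (j := p + ⌈x⌉) (by omega)
      (fun t ht1 ht2 => hR t ht1 (by omega))
    have hfull' : (ms X p (p + ⌈x⌉) : ℝ) = ⌈x⌉ := by
      have : (ms X p (p + ⌈x⌉) : ℤ) = ⌈x⌉ := by rw [hfull]; ring
      exact_mod_cast this
    have h10 : c * ((p + ⌈x⌉ - r : ℤ) : ℝ) ≤ ms X (p - 1 + 1) (p + ⌈x⌉) := by
      rw [sub_add_cancel, hfull']
      have e : ((p + ⌈x⌉ - r : ℤ) : ℝ) = ((p - r : ℤ) : ℝ) + ⌈x⌉ := by push_cast; ring
      rw [e]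
      have : c * ((p - r : ℤ) : ℝ) = (1 - c) * x := by rw [hx]; field_simp
      nlinarith
    have h11 : ¬ c * ((p + ⌈x⌉ - r : ℤ) : ℝ) ≤ ms X r (p - 1) := by
      rcases h9 with h | h
      · exact h
      · exact absurd h10 h
    push Not at h11
    have h12 : ms X r p = ms X r (p - 1) := by
      have := ms_succ (X := X) (i := r) (j := p - 1) (by omega)
      rw [sub_add_cancel, if_neg hpX, add_zero] at this
      exact this
    rw [h12]
    have e : ((p + ⌈x⌉ - r : ℤ) : ℝ) = ((p - r : ℤ) : ℝ) + ⌈x⌉ := by push_cast; ring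
    rw [e] at h11
    have h13 : c * (⌈x⌉ : ℝ) ≤ c * (x + 1) := mul_le_mul_of_nonneg_left hcx.le hc.le
    have h14 : c * x ≤ (1 / 2) * (2 * (c * ((p - r : ℤ) : ℝ))) :=
      mul_le_mul hc2 hx2 hx0 (by norm_num)
    nlinarith
  · have h2 : (((q - p : ℤ)) : ℝ) ≤ x := by
      have := Int.lt_ceil.1 hy
      exact this.le
    have h3 := ms_le_longest (u := r) (v := p) hc hX (by omega) (by omega) (ℓ := q - p) (by omega)
      (fun p' q' h1 h2 h3 h4 => hmax p' q' (by omega) h2 (by omega) h4)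
    linarith

/-- sparse seen from the right neighbour of a longest run -/
theorem rg_of_longest (hc : 0 < c) (hc2 : c ≤ 1 / 2) (hX : NClosed c n X) {u v p q : ℤ}
    (hn : v - u ≤ n) (hup : u ≤ p) (hpq : p < q) (hqv : q < v) (hR : Run X p q)
    (hmax : ∀ p' q' : ℤ, u ≤ p' → p' ≤ q' → q' ≤ v → Run X p' q' → q' - p' ≤ q - p)
    (hc0 : 4 * c ≤ c0) : RG c0 X q v := by
  intro r hr1 hr2
  have hprpos : (1 : ℝ) ≤ ((r - q : ℤ) : ℝ) := by exact_mod_cast (by omega : (1 : ℤ) ≤ r - q)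
  have hpX : q ∉ X := by
    intro hp
    have := hmax p (q + 1) (by omega) (by omega) (by omega) (by
      intro t ht1 ht2
      rcases eq_or_lt_of_le (show t ≤ q by omega) with h | h
      · rwa [h]
      · exact hR t (by omega) h)
    omega
  suffices h : (ms X q r : ℝ) ≤ 4 * c * ((r - q : ℤ) : ℝ) by
    refine h.trans (mul_le_mul_of_nonneg_right hc0 (by linarith))
  set x : ℝ := c * ((r - q : ℤ) : ℝ) / (1 - c) with hx
  have h1c : (0 : ℝ) < 1 - c := by linarith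
  have hx0 : 0 ≤ x := by positivity
  have hx2 : x ≤ 2 * (c * ((r - q : ℤ) : ℝ)) := by
    rw [hx, div_le_iff₀ h1c]
    have : 0 ≤ c * ((r - q : ℤ) : ℝ) := by positivity
    nlinarith
  rcases le_or_gt (⌈x⌉ : ℤ) (q - p) with hy | hy
  · have hy0 : 0 ≤ ⌈x⌉ := Int.ceil_nonneg hx0
    have hxc : x ≤ (⌈x⌉ : ℝ) := Int.le_ceil x
    have hcx : (⌈x⌉ : ℝ) < x + 1 := Int.ceil_lt_add_one x
    have h9 := hX q hpX (q - ⌈x⌉) r (by omega) (by omega) (by omega)
    rw [not_and_or] at h9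
    have hfull := ms_full (X := X) (i := q - ⌈x⌉) (j := q) (by omega)
      (fun t ht1 ht2 => hR t (by omega) ht2)
    have hfull' : (ms X (q - ⌈x⌉) q : ℝ) = ⌈x⌉ := by
      have : (ms X (q - ⌈x⌉) q : ℤ) = ⌈x⌉ := by rw [hfull]; ring
      exact_mod_cast this
    have h10 : c * ((r - (q - ⌈x⌉) : ℤ) : ℝ) ≤ ms X (q - ⌈x⌉) q := by
      rw [hfull']
      have e : ((r - (q - ⌈x⌉) : ℤ) : ℝ) = ((r - q : ℤ) : ℝ) + ⌈x⌉ := by push_cast; ring
      rw [e]
      have : c * ((r - q : ℤ) : ℝ) = (1 - c) * x := by rw [hx]; field_simp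
      nlinarith
    have h11 : ¬ c * ((r - (q - ⌈x⌉) : ℤ) : ℝ) ≤ ms X (q + 1) r := by
      rcases h9 with h | h
      · exact absurd h10 h
      · exact h
    push Not at h11
    have h12 : ms X q r = ms X (q + 1) r := by
      rw [ms_add (by omega : q ≤ q + 1) (by omega : q + 1 ≤ r), ms_one, if_neg hpX, zero_add]
    rw [h12]
    have e : ((r - (q - ⌈x⌉) : ℤ) : ℝ) = ((r - q : ℤ) : ℝ) + ⌈x⌉ := by push_cast; ring
    rw [e] at h11
    have h13 : c * (⌈x⌉ : ℝ) ≤ c * (x + 1) := mul_le_mul_of_nonneg_left hcx.le hc.le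
    have h14 : c * x ≤ (1 / 2) * (2 * (c * ((r - q : ℤ) : ℝ))) :=
      mul_le_mul hc2 hx2 hx0 (by norm_num)
    nlinarith
  · have h2 : (((q - p : ℤ)) : ℝ) ≤ x := by
      have := Int.lt_ceil.1 hy
      exact this.le
    have h3 := ms_le_longest (u := q) (v := r) hc hX (by omega) (by omega) (ℓ := q - p) (by omega)
      (fun p' q' h1 h2 h3 h4 => hmax p' q' (by omega) h2 (by omega) h4)
    linarith

/-! ### rising sun -/

/-- points with a dense window on the right, inside `(-∞, p]` -/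
theorem count_badR {θ : ℝ} (hθ : 0 < θ) (p : ℤ) : ∀ n : ℕ,
    θ * ms {t | ∃ r, t < r ∧ r ≤ p ∧ θ * ((r - t : ℤ) : ℝ) ≤ ms X t r} (p - n) p ≤
      ms X (p - n) p := by
  intro n
  induction n using Nat.strong_induction_on with
  | _ n ih =>
    set Bad : Set ℤ := {t | ∃ r, t < r ∧ r ≤ p ∧ θ * ((r - t : ℤ) : ℝ) ≤ ms X t r} with hBad
    rcases Nat.eq_zero_or_pos n with h0 | h0
    · subst h0
      rw [ms_eq_zero_of_le (by simp)]
      push_cast
      rw [mul_zero]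
      positivity
    by_cases hb : p - (n : ℤ) ∈ Bad
    · obtain ⟨r, hr1, hr2, hr3⟩ := hb
      obtain ⟨m, hm⟩ := Int.le.dest hr2
      have h1 := ih m (by omega)
      have e : p - (m : ℤ) = r := by omega
      rw [e] at h1
      rw [ms_add (X := Bad) (by omega : p - (n : ℤ) ≤ r) hr2,
        ms_add (X := X) (by omega : p - (n : ℤ) ≤ r) hr2]
      have h2 := ms_le (X := Bad) (p - (n : ℤ)) r
      have h3 : (ms Bad (p - (n : ℤ)) r : ℝ) ≤ ((r - (p - (n : ℤ)) : ℤ) : ℝ) := by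
        have : (ms Bad (p - (n : ℤ)) r : ℤ) ≤ r - (p - (n : ℤ)) := by omega
        exact_mod_cast this
      push_cast
      rw [mul_add]
      refine add_le_add ?_ h1
      refine (mul_le_mul_of_nonneg_left h3 hθ.le).trans hr3
    · have h1 := ih (n - 1) (by omega)
      have h2 : ms Bad (p - (n : ℤ)) p = ms Bad (p - ((n - 1 : ℕ) : ℤ)) p := by
        have e : p - ((n - 1 : ℕ) : ℤ) = p - (n : ℤ) + 1 := by omega
        rw [e, ms_add (by omega : p - (n : ℤ) ≤ p - (n : ℤ) + 1) (by omega), ms_one, if_neg hb,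
          zero_add]
      rw [h2]
      refine h1.trans ?_
      exact_mod_cast ms_mono' (by omega) le_rfl

/-- points with a dense window on the left, inside `[u, ∞)` -/
theorem count_badL {θ : ℝ} (hθ : 0 < θ) (u : ℤ) : ∀ n : ℕ,
    θ * ms {t | ∃ r, u ≤ r ∧ r < t ∧ θ * ((t - r : ℤ) : ℝ) ≤ ms X r t} (u + 1) (u + 1 + n) ≤
      ms X u (u + n) := by
  intro n
  induction n using Nat.strong_induction_on with
  | _ n ih =>
    set Bad : Set ℤ := {t | ∃ r, u ≤ r ∧ r < t ∧ θ * ((t - r : ℤ) : ℝ) ≤ ms X r t} with hBad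
    rcases Nat.eq_zero_or_pos n with h0 | h0
    · subst h0
      rw [ms_eq_zero_of_le (by simp)]
      push_cast
      rw [mul_zero]
      positivity
    by_cases hb : u + (n : ℤ) ∈ Bad
    · obtain ⟨r, hr1, hr2, hr3⟩ := hb
      obtain ⟨m, hm⟩ := Int.le.dest hr1
      have h1 := ih m (by omega)
      rw [← hm] at hr2 hr3
      have e : u + 1 + (n : ℤ) = u + (n : ℤ) + 1 := by ring
      rw [ms_add (X := Bad) (by omega : u + 1 ≤ u + 1 + (m : ℤ)) (by omega),
        ms_add (X := X) (by omega : u ≤ u + (m : ℤ)) (by omega)]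
      have h2 := ms_le (X := Bad) (u + 1 + (m : ℤ)) (u + 1 + (n : ℤ))
      have h3 : (ms Bad (u + 1 + (m : ℤ)) (u + 1 + (n : ℤ)) : ℝ) ≤
          ((u + (n : ℤ) - (u + (m : ℤ)) : ℤ) : ℝ) := by
        have : (ms Bad (u + 1 + (m : ℤ)) (u + 1 + (n : ℤ)) : ℤ) ≤
          u + (n : ℤ) - (u + (m : ℤ)) := by omega
        exact_mod_cast this
      push_cast at h3 hr3 ⊢
      rw [mul_add]
      refine add_le_add h1 ?_
      refine (mul_le_mul_of_nonneg_left h3 hθ.le).trans hr3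
    · have h1 := ih (n - 1) (by omega)
      have h2 : ms Bad (u + 1) (u + 1 + (n : ℤ)) = ms Bad (u + 1) (u + 1 + ((n - 1 : ℕ) : ℤ)) := by
        have e : u + 1 + (n : ℤ) = (u + (n : ℤ)) + 1 := by ring
        have e2 : u + 1 + ((n - 1 : ℕ) : ℤ) = u + (n : ℤ) := by omega
        rw [e, e2, ms_succ (by omega), if_neg hb, add_zero]
      rw [h2]
      refine h1.trans ?_
      exact_mod_cast ms_mono' le_rfl (by omega)

/-- a two-sided good cut point in `[p - 2R, p - R]` -/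
theorem exists_cut_left {u p : ℤ} {R : ℕ} (hR : 0 < R) (hc0 : 0 < c0)
    (hlg : LG (c0 / 20) X u p) (hu : u + 3 * R ≤ p) :
    ∃ i : ℤ, p - 2 * R ≤ i ∧ i ≤ p - R ∧ LG c0 X u i ∧ RG c0 X i p := by
  by_contra hcon
  push Not at hcon
  set B1 : Set ℤ := {t | ∃ r, t < r ∧ r ≤ p ∧ c0 * ((r - t : ℤ) : ℝ) ≤ ms X t r} with hB1
  set B2 : Set ℤ := {t | ∃ r, p - 3 * R ≤ r ∧ r < t ∧ c0 * ((t - r : ℤ) : ℝ) ≤ ms X r t} with hB2
  have hall : ∀ t, p - 2 * R ≤ t → t < p - R + 1 → t ∈ B1 ∪ B2 := by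
    intro t ht1 ht2
    by_cases hL : LG c0 X u t
    · have hr := hcon t ht1 (by omega) hL
      unfold RG at hr
      push Not at hr
      obtain ⟨r, hr1, hr2, hr3⟩ := hr
      exact Or.inl ⟨r, hr1, hr2, hr3.le⟩
    · unfold LG at hL
      push Not at hL
      obtain ⟨r, hr1, hr2, hr3⟩ := hL
      refine Or.inr ⟨r, ?_, hr2, hr3.le⟩
      by_contra hlt
      push Not at hlt
      have h1 : ms X r t ≤ ms X r p := ms_mono' le_rfl (by omega)
      have h2 := hlg r hr1 (by omega)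
      have h3 : (ms X r t : ℝ) ≤ ms X r p := by exact_mod_cast h1
      have h4 : ((p - r : ℤ) : ℝ) ≤ 3 * ((t - r : ℤ) : ℝ) := by
        have : p - r ≤ 3 * (t - r) := by omega
        exact_mod_cast this
      have h5 : (0 : ℝ) < ((t - r : ℤ) : ℝ) := by exact_mod_cast (by omega : 0 < t - r)
      have h6 : c0 / 20 * ((p - r : ℤ) : ℝ) ≤ c0 / 20 * (3 * ((t - r : ℤ) : ℝ)) :=
        mul_le_mul_of_nonneg_left h4 (by positivity)
      nlinarith
  have hfull := ms_full (X := B1 ∪ B2) (i := p - 2 * R) (j := p - R + 1) (by omega) hall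
  have h1 := count_badR (X := X) hc0 p (2 * R)
  rw [← hB1] at h1
  have h2 := count_badL (X := X) hc0 (p - 3 * R) (2 * R)
  rw [← hB2] at h2
  have h3 := hlg (p - 2 * R) (by omega) (by omega)
  have h4 := hlg (p - 3 * R) (by omega) (by omega)
  have e1 : p - ((2 * R : ℕ) : ℤ) = p - 2 * R := by push_cast; ring
  rw [e1] at h1
  have e2 : p - 3 * (R : ℤ) + ((2 * R : ℕ) : ℤ) = p - R := by push_cast; ring
  rw [e2] at h2
  have h5 : ms (B1 ∪ B2) (p - 2 * R) (p - R + 1) ≤ ms B1 (p - 2 * R) p +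
      ms B2 (p - 3 * R + 1) (p - 3 * R + 1 + ((2 * R : ℕ) : ℤ)) := by
    refine (ms_union_le _ _).trans (Nat.add_le_add (ms_mono' le_rfl (by omega)) ?_)
    exact ms_mono' (by omega) (by push_cast; omega)
  have h6 : ms X (p - 3 * R) (p - R) ≤ ms X (p - 3 * R) p := ms_mono' le_rfl (by omega)
  have h7 : ((R : ℝ) + 1) ≤ (ms B1 (p - 2 * R) p : ℝ) +
      ms B2 (p - 3 * R + 1) (p - 3 * R + 1 + ((2 * R : ℕ) : ℤ)) := by
    have : ((R : ℤ) + 1) ≤ (ms B1 (p - 2 * R) p : ℤ) +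
      ms B2 (p - 3 * R + 1) (p - 3 * R + 1 + ((2 * R : ℕ) : ℤ)) := by omega
    exact_mod_cast this
  have h8 : (ms X (p - 3 * R) (p - R) : ℝ) ≤ ms X (p - 3 * R) p := by exact_mod_cast h6
  have e3 : ((p - (p - 2 * (R : ℤ)) : ℤ) : ℝ) = 2 * R := by push_cast; ring
  have e4 : ((p - (p - 3 * (R : ℤ)) : ℤ) : ℝ) = 3 * R := by push_cast; ring
  rw [e3] at h3
  rw [e4] at h4
  have h9 : c0 * ((R : ℝ) + 1) ≤ c0 / 20 * (2 * R) + c0 / 20 * (3 * R) := by
    have := mul_le_mul_of_nonneg_left h7 hc0.le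
    rw [mul_add c0 (ms B1 (p - 2 * R) p : ℝ)] at this
    linarith
  have hRpos : (0 : ℝ) < R := by exact_mod_cast hR
  nlinarith

/-- a two-sided good cut point in `[q + R, q + 2R]` -/
theorem exists_cut_right {q v : ℤ} {R : ℕ} (hR : 0 < R) (hc0 : 0 < c0)
    (hrg : RG (c0 / 20) X q v) (hv : q + 3 * R ≤ v) :
    ∃ j : ℤ, q + R ≤ j ∧ j ≤ q + 2 * R ∧ LG c0 X q j ∧ RG c0 X j v := by
  by_contra hcon
  push Not at hcon
  set B1 : Set ℤ := {t | ∃ r, q ≤ r ∧ r < t ∧ c0 * ((t - r : ℤ) : ℝ) ≤ ms X r t} with hB1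
  set B2 : Set ℤ := {t | ∃ r, t < r ∧ r ≤ q + 3 * R ∧ c0 * ((r - t : ℤ) : ℝ) ≤ ms X t r} with hB2
  have hall : ∀ t, q + R ≤ t → t < q + 2 * R + 1 → t ∈ B1 ∪ B2 := by
    intro t ht1 ht2
    by_cases hL : LG c0 X q t
    · have hr := hcon t ht1 (by omega) hL
      unfold RG at hr
      push Not at hr
      obtain ⟨r, hr1, hr2, hr3⟩ := hr
      refine Or.inr ⟨r, hr1, ?_, hr3.le⟩
      by_contra hlt
      push Not at hlt
      have h1 : ms X t r ≤ ms X q r := ms_mono' (by omega) le_rfl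
      have h2 := hrg r (by omega) hr2
      have h3 : (ms X t r : ℝ) ≤ ms X q r := by exact_mod_cast h1
      have h4 : ((r - q : ℤ) : ℝ) ≤ 3 * ((r - t : ℤ) : ℝ) := by
        have : r - q ≤ 3 * (r - t) := by omega
        exact_mod_cast this
      have h5 : (0 : ℝ) < ((r - t : ℤ) : ℝ) := by exact_mod_cast (by omega : 0 < r - t)
      have h6 : c0 / 20 * ((r - q : ℤ) : ℝ) ≤ c0 / 20 * (3 * ((r - t : ℤ) : ℝ)) :=
        mul_le_mul_of_nonneg_left h4 (by positivity)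
      nlinarith
    · unfold LG at hL
      push Not at hL
      obtain ⟨r, hr1, hr2, hr3⟩ := hL
      exact Or.inl ⟨r, hr1, hr2, hr3.le⟩
  have hfull := ms_full (X := B1 ∪ B2) (i := q + R) (j := q + 2 * R + 1) (by omega) hall
  have h1 := count_badL (X := X) hc0 q (2 * R)
  rw [← hB1] at h1
  have h2 := count_badR (X := X) hc0 (q + 3 * R) (2 * R)
  rw [← hB2] at h2
  have h3 := hrg (q + 2 * R) (by omega) (by omega)
  have h4 := hrg (q + 3 * R) (by omega) (by omega)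
  have e1 : q + ((2 * R : ℕ) : ℤ) = q + 2 * R := by push_cast; ring
  rw [e1] at h1
  have e2 : q + 3 * (R : ℤ) - ((2 * R : ℕ) : ℤ) = q + R := by push_cast; ring
  rw [e2] at h2
  have h5 : ms (B1 ∪ B2) (q + R) (q + 2 * R + 1) ≤ ms B1 (q + 1) (q + 1 + ((2 * R : ℕ) : ℤ)) +
      ms B2 (q + R) (q + 3 * R) := by
    refine (ms_union_le _ _).trans (Nat.add_le_add ?_ (ms_mono' le_rfl (by omega)))
    exact ms_mono' (by omega) (by push_cast; omega)
  have h6 : ms X (q + R) (q + 3 * R) ≤ ms X q (q + 3 * R) := ms_mono' (by omega) le_rfl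
  have h7 : ((R : ℝ) + 1) ≤ (ms B1 (q + 1) (q + 1 + ((2 * R : ℕ) : ℤ)) : ℝ) +
      ms B2 (q + R) (q + 3 * R) := by
    have : ((R : ℤ) + 1) ≤ (ms B1 (q + 1) (q + 1 + ((2 * R : ℕ) : ℤ)) : ℤ) +
      ms B2 (q + R) (q + 3 * R) := by omega
    exact_mod_cast this
  have h8 : (ms X (q + R) (q + 3 * R) : ℝ) ≤ ms X q (q + 3 * R) := by exact_mod_cast h6
  have e3 : ((q + 2 * (R : ℤ) - q : ℤ) : ℝ) = 2 * R := by push_cast; ring
  have e4 : ((q + 3 * (R : ℤ) - q : ℤ) : ℝ) = 3 * R := by push_cast; ring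
  rw [e3] at h3
  rw [e4] at h4
  have h9 : c0 * ((R : ℝ) + 1) ≤ c0 / 20 * (2 * R) + c0 / 20 * (3 * R) := by
    have := mul_le_mul_of_nonneg_left h7 hc0.le
    rw [mul_add c0 (ms B1 (q + 1) (q + 1 + ((2 * R : ℕ) : ℤ)) : ℝ)] at this
    linarith
  have hRpos : (0 : ℝ) < R := by exact_mod_cast hR
  nlinarith

end Vale.Agent.P108.H462
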