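import Mathlib

/-!
# P108, block [DET] (helper462): numerical inequalities
-/

namespace Vale.Agent.P108.H462

theorem num_sq {r len l x l9 ly l8 : ℝ} (hx : 1000000 ≤ x) (hr : 100000 ≤ r) (hl0 : 0 ≤ l)
    (hl : 1000000 * l ≤ 2 * r) (hl9 : l9 ≤ x + 8) (hl8 : l8 ≤ 7) (hlen : r ≤ len)
    (hg : 99989 / 100000 * len * x ≤ ly) :
    l8 + l * l9 + ((l + 3) * l9 + 3 / 5 * (2 * r) * x) ≤ 2 * ly := by
  have h1 : l * l9 ≤ l * (x + 8) := mul_le_mul_of_nonneg_left hl9 hl0
  have h2 : 1000000 * l * x ≤ 2 * r * x := mul_le_mul_of_nonneg_right hl (by linarith)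
  have h3 : r * x ≤ len * x := mul_le_mul_of_nonneg_right hlen (by linarith)
  have h4 : 100000 * x ≤ r * x := mul_le_mul_of_nonneg_right hr (by linarith)
  have h5 : r * 1000000 ≤ r * x := mul_le_mul_of_nonneg_left hx (by linarith)
  have e1 : l * l9 + ((l + 3) * l9) = 2 * (l * l9) + 3 * l9 := by ring
  have e2 : l * (x + 8) = l * x + 8 * l := by ring
  rw [e2] at h1
  have e3 : 1000000 * l * x = 1000000 * (l * x) := by ring
  have e4 : 2 * r * x = 2 * (r * x) := by ring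
  rw [e3, e4] at h2
  have e5 : 3 / 5 * (2 * r) * x = 6 / 5 * (r * x) := by ring
  have e6 : 99989 / 100000 * len * x = 99989 / 100000 * (len * x) := by ring
  rw [e6] at hg
  linarith

theorem num_grL {r len x l9 ly ls : ℝ} (hx : 1000000 ≤ x) (hr : 100000 ≤ r) (hl9 : l9 ≤ x + 8)
    (hls : ls ≤ 1) (hlen : r ≤ len) (hg : 99989 / 100000 * len * x ≤ l9 + ly) :
    ls + (1 - 1 / 5000) * (len - 1) * x ≤ ly := by
  have h3 : 100000 * x ≤ len * x := mul_le_mul_of_nonneg_right (hr.trans hlen) (by linarith)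
  have e6 : 99989 / 100000 * len * x = 99989 / 100000 * (len * x) := by ring
  rw [e6] at hg
  have e7 : (1 - 1 / 5000) * (len - 1) * x = (1 - 1 / 5000) * (len * x) - (1 - 1 / 5000) * x := by
    ring
  rw [e7]
  linarith

theorem num_grR {r len l x l9 ly ls : ℝ} (hx : 1000000 ≤ x) (hr : 100000 ≤ r) (hl0 : 0 ≤ l)
    (hl : 1000000 * l ≤ 2 * r) (hl9 : l9 ≤ x + 8)
    (hls : ls ≤ 1) (hlen : r ≤ len) (hg : 99989 / 100000 * len * x ≤ (l + 2) * l9 + ly) :
    ls + (1 - 1 / 5000) * (len + l) * x ≤ ly := by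
  have h1 : (l + 2) * l9 ≤ (l + 2) * (x + 8) := mul_le_mul_of_nonneg_left hl9 (by linarith)
  have h2 : 1000000 * l * x ≤ 2 * r * x := mul_le_mul_of_nonneg_right hl (by linarith)
  have h3 : r * x ≤ len * x := mul_le_mul_of_nonneg_right hlen (by linarith)
  have h4 : 100000 * x ≤ r * x := mul_le_mul_of_nonneg_right hr (by linarith)
  have h5 : r * 1000000 ≤ r * x := mul_le_mul_of_nonneg_left hx (by linarith)
  have e2 : (l + 2) * (x + 8) = l * x + 8 * l + 2 * x + 16 := by ring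
  rw [e2] at h1
  have e3 : 1000000 * l * x = 1000000 * (l * x) := by ring
  have e4 : 2 * r * x = 2 * (r * x) := by ring
  rw [e3, e4] at h2
  have e6 : 99989 / 100000 * len * x = 99989 / 100000 * (len * x) := by ring
  rw [e6] at hg
  have e7 : (1 - 1 / 5000) * (len + l) * x =
      (1 - 1 / 5000) * (len * x) + (1 - 1 / 5000) * (l * x) := by ring
  rw [e7]
  linarith

end Vale.Agent.P108.H462
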