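import Vale.Agent.P108.H462.Bridge
import Vale.Agent.P108.H462.Num
import Vale.Agent.P108.Sk.Blocks

/-!
# P108, block [DET] (helper462), file 8: the cone condition on good windows

`Sk.DetCone` : in the setting of the skeleton every good window is hyperbolic.
-/

open Set

namespace Vale.Agent.P108.H462

open P108C
open Vale.Agent.P108.Sk (cβ ce cδ cd ca cP c0 cc cZ s0 Low Crit NC Peak Defect Bset Setting GoodWin
  LongZ DetCone)

/-- `k` is large -/
structure Big (k : ℝ) : Prop where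
  k0 : 0 < k
  x : 1000000 ≤ Real.log k

theorem exists_big : ∃ k0 : ℝ, ∀ k ≥ k0, Big k := by
  refine ⟨Real.exp 1000000, fun k hk => ?_⟩
  have h0 : 0 < k := lt_of_lt_of_le (Real.exp_pos _) hk
  refine ⟨h0, ?_⟩
  have := Real.log_le_log (Real.exp_pos _) hk
  rwa [Real.log_exp] at this

namespace Big

variable {k : ℝ}

theorem rpow_eq (h : Big k) (y : ℝ) : k ^ y = Real.exp (y * Real.log k) := by
  rw [Real.rpow_def_of_pos h.k0, mul_comm]

theorem rpow_ge (h : Big k) (y : ℝ) : 1 + y * Real.log k ≤ k ^ y := by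
  rw [h.rpow_eq]
  have := Real.add_one_le_exp (y * Real.log k)
  linarith

theorem k1 (h : Big k) : 1000000 ≤ k := by
  have h1 := h.rpow_ge 1
  rw [Real.rpow_one] at h1
  have := h.x
  linarith

theorem log_9k (h : Big k) : Real.log (9 * k) ≤ Real.log k + 8 := by
  rw [Real.log_mul (by norm_num) h.k0.ne']
  have := Real.log_le_sub_one_of_pos (show (0 : ℝ) < 9 by norm_num)
  linarith

theorem log_9k_nonneg (h : Big k) : 0 ≤ Real.log (9 * k) :=
  Real.log_nonneg (by have := h.k1; linarith)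

theorem le_log_9k (h : Big k) : Real.log k ≤ Real.log (9 * k) :=
  Real.log_le_log h.k0 (by have := h.k0; linarith)

/-- `16 ≤ k ^ β` -/
theorem kβ (h : Big k) : 10000 ≤ k ^ cβ := by
  have h1 := h.rpow_ge cβ
  have := h.x
  unfold cβ at *
  linarith

theorem kβ2 (h : Big k) : 5000 ≤ k ^ (cβ / 2) := by
  have h1 := h.rpow_ge (cβ / 2)
  have := h.x
  unfold cβ at *
  linarith

theorem kβ_eq (h : Big k) : k ^ cβ = k ^ (cβ / 2) * k ^ (cβ / 2) := by
  rw [← Real.rpow_add h.k0]; congr 1; ring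

theorem kβ_le (h : Big k) : k ^ cβ ≤ k := by
  calc k ^ cβ ≤ k ^ (1 : ℝ) := by
        apply Real.rpow_le_rpow_of_exponent_le (by have := h.k1; linarith)
        unfold cβ; norm_num
    _ = k := Real.rpow_one k

theorem s0_ge (h : Big k) : 100000 ≤ s0 k := by
  have h1 := h.rpow_ge (1 - Sk.cb)
  have h2 := h.x
  have h3 : (100000 : ℝ) ≤ k ^ (1 - Sk.cb) := by
    refine le_trans ?_ h1
    norm_num
    linarith
  have h5 : (1 : ℝ) ≤ Real.log k ^ 2 := one_le_pow₀ (by linarith)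
  have h6 : (100000 : ℝ) ≤ k ^ (1 - Sk.cb) * Real.log k ^ 2 := by
    calc (100000 : ℝ) ≤ k ^ (1 - Sk.cb) := h3
      _ = k ^ (1 - Sk.cb) * 1 := (mul_one _).symm
      _ ≤ _ := mul_le_mul_of_nonneg_left h5 (by linarith)
  have h4 : (100000 : ℝ) ≤ (s0 k : ℝ) := h6.trans (Nat.le_ceil _)
  exact_mod_cast h4

theorem hBg (h : Big k) : 9 * k ≤ (k ^ cβ / 2) ^ 101 := by
  have hk := h.k0
  have hkβ := h.kβ
  have h1 : 0 < k ^ cβ / 2 := by linarith
  rw [← Real.log_le_log_iff (by linarith) (by positivity), Real.log_pow,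
    Real.log_div (by linarith) (by norm_num), Real.log_rpow hk]
  have h2 := h.log_9k
  have h3 := Real.log_two_lt_d9
  have h4 := h.x
  unfold cβ
  push_cast
  nlinarith

end Big

/-! ### scales of runs -/

theorem exists_scl {s ℓ : ℕ} (hs : 1 ≤ s) (hℓ : s ≤ ℓ) :
    ∃ l : ℕ, cP * ℓ ≤ s * 2 ^ (l + 1) ∧ s * 2 ^ l < cP * ℓ := by
  have hex : ∃ n : ℕ, cP * ℓ ≤ s * 2 ^ n := by
    refine ⟨cP * ℓ, ?_⟩
    calc cP * ℓ ≤ 2 ^ (cP * ℓ) := (Nat.lt_two_pow_self).le
      _ = 1 * 2 ^ (cP * ℓ) := (one_mul _).symm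
      _ ≤ s * 2 ^ (cP * ℓ) := Nat.mul_le_mul_right _ hs
  classical
  rcases h : Nat.find hex with _ | l
  · have h1 := Nat.find_spec hex
    rw [h, pow_zero, mul_one] at h1
    unfold cP at h1
    omega
  · refine ⟨l, ?_, ?_⟩
    · have h1 := Nat.find_spec hex
      rwa [h] at h1
    · have h1 := Nat.find_min hex (m := l) (by omega)
      omega

open Classical in
/-- radius of the environments of a run of length `ℓ` -/
noncomputable def radF (k : ℝ) (ℓ : ℕ) : ℕ :=
  if h : 1 ≤ s0 k ∧ s0 k ≤ ℓ then s0 k * 2 ^ (exists_scl h.1 h.2).choose else 1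

open Classical in
/-- depth of the peaks attached to a run of length `ℓ` -/
noncomputable def depF (k : ℝ) (ℓ : ℕ) : ℝ :=
  if s0 k ≤ ℓ then (9 * k) ^ (ℓ + 3) * k ^ (ca * ((2 * radF k ℓ : ℕ) : ℝ)) else 1

theorem radF_spec {k : ℝ} (hk : Big k) {ℓ : ℕ} (h : s0 k ≤ ℓ) :
    ∃ l : ℕ, radF k ℓ = s0 k * 2 ^ l ∧ cP * ℓ ≤ s0 k * 2 ^ (l + 1) ∧ s0 k * 2 ^ l < cP * ℓ := by
  have hs := hk.s0_ge
  have h1 : 1 ≤ s0 k ∧ s0 k ≤ ℓ := ⟨by omega, h⟩
  unfold radF
  rw [dif_pos h1]
  exact ⟨_, rfl, (exists_scl h1.1 h1.2).choose_spec⟩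

theorem depF_eq {k : ℝ} {ℓ : ℕ} (h : s0 k ≤ ℓ) :
    depF k ℓ = (9 * k) ^ (ℓ + 3) * k ^ (ca * ((2 * radF k ℓ : ℕ) : ℝ)) := by
  unfold depF
  rw [if_pos h]

/-- the parameters -/
noncomputable def theP (k : ℝ) (hk : Big k) : Par2 where
  g := k ^ cβ / 2
  B := 9 * k
  M := 101
  c := cc
  c0 := c0
  Λ := 2000000
  N0 := 1000000000
  rad := radF k
  dep := depF k
  hg := by have := hk.kβ; linarith
  hgB := by have := hk.kβ_le; have := hk.k0; linarith
  hBg := hk.hBg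
  hc := by unfold cc; norm_num
  hcc := by unfold cc c0; norm_num
  hc0 := by unfold c0; norm_num
  hN := by norm_num
  hrad1 := fun ℓ hℓ => by
    by_cases h : s0 k ≤ ℓ
    · obtain ⟨l, h1, h2, h3⟩ := radF_spec hk h
      rw [h1]
      have := hk.s0_ge
      exact Nat.mul_pos (by omega) (by positivity)
    · unfold radF
      rw [dif_neg (by tauto)]
  hrad2 := fun ℓ hℓ => by
    by_cases h : s0 k ≤ ℓ
    · obtain ⟨l, h1, h2, h3⟩ := radF_spec hk h
      rw [h1]
      unfold cP at h3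
      omega
    · unfold radF
      rw [dif_neg (by tauto)]
      omega
  hdep1 := fun ℓ hℓ => by
    have hk1 := hk.k1
    unfold depF
    split_ifs with h
    · have h1 : (1 : ℝ) ≤ (9 * k) ^ (ℓ + 3) := one_le_pow₀ (by linarith)
      have h2 : (1 : ℝ) ≤ k ^ (ca * ((2 * radF k ℓ : ℕ) : ℝ)) := by
        apply Real.one_le_rpow (by linarith)
        unfold ca; positivity
      nlinarith
    · exact le_rfl
  hdep2 := fun ℓ hℓ => by
    have hk1 := hk.k1
    have hk0 := hk.k0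
    have hB : (1 : ℝ) ≤ 9 * k := by linarith
    unfold depF
    split_ifs with h
    · obtain ⟨l, h1, h2, h3⟩ := radF_spec hk h
      have h4 : k ^ (ca * ((2 * radF k ℓ : ℕ) : ℝ)) ≤ (9 * k) ^ (1200000 * ℓ) := by
        calc k ^ (ca * ((2 * radF k ℓ : ℕ) : ℝ)) ≤ k ^ ((1200000 * ℓ : ℕ) : ℝ) := by
              apply Real.rpow_le_rpow_of_exponent_le (by linarith)
              have h5 : radF k ℓ ≤ 1000000 * ℓ := by rw [h1]; unfold cP at h3; omega
              have h6 : (radF k ℓ : ℝ) ≤ 1000000 * ℓ := by exact_mod_cast h5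
              unfold ca
              push_cast
              linarith
          _ = k ^ (1200000 * ℓ) := Real.rpow_natCast _ _
          _ ≤ (9 * k) ^ (1200000 * ℓ) := pow_le_pow_left₀ hk0.le (by linarith) _
      calc 2 * ((9 * k) ^ (ℓ + 3) * k ^ (ca * ((2 * radF k ℓ : ℕ) : ℝ)))
          ≤ (9 * k) * ((9 * k) ^ (ℓ + 3) * (9 * k) ^ (1200000 * ℓ)) := by
            gcongr
            linarith
        _ = (9 * k) ^ (ℓ + 3 + 1200000 * ℓ + 1) := by ring
        _ ≤ (9 * k) ^ (2000000 * ℓ) := pow_le_pow_right₀ hB (by omega)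
    · calc (2 : ℝ) * 1 ≤ 9 * k := by linarith
        _ = (9 * k) ^ 1 := (pow_one _).symm
        _ ≤ (9 * k) ^ (2000000 * ℓ) := pow_le_pow_right₀ hB (by omega)

/-! ### consequences of the setting -/

variable {k s : ℝ} {a : ℤ → ℝ} {u w : ℤ} {X : Set ℤ}

theorem not_defect (S : Setting k s a u w X) {t o : ℤ} {R : ℕ} (h1 : u ≤ t) (h2 : t < w)
    (h3 : t ∉ X) (h4 : |t - o| ≤ R) : ¬ Defect k s a o R :=
  fun h => h3 (S.bad ⟨⟨o, R, h, h4⟩, ⟨h1, h2⟩⟩)

theorem clean_of_notMem (S : Setting k s a u w X) {t : ℤ} (h1 : u ≤ t) (h2 : t < w)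
    (h3 : t ∉ X) : (1 + s) * k ^ cβ ≤ |a t| := by
  by_contra h
  push Not at h
  exact not_defect S h1 h2 h3 (o := t) (R := s0 k) (by simp) (Or.inl ⟨rfl, h⟩)

theorem le_of_notMem_nc {t : ℤ} (h : t ∉ NC k s a) : (1 + s) * k ^ (1 - ce) ≤ |a t| := by
  by_contra h1
  push Not at h1
  exact h h1

theorem abs_add_one_le (hk : Big k) (S : Setting k s a u w X) (t : ℤ) : |a t| + 1 ≤ 9 * k := by
  have := S.bd t
  have := hk.k1
  linarith

/-- an interior maximal run is long -/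
theorem long_run (S : Setting k s a u w X) {p q : ℤ} (hpq : p < q) (hrun : Run X p q)
    (hp : p - 1 ∉ X) (hq : q ∉ X) (hu : u ≤ p - 1) (hw : q < w) : s0 k ≤ (q - p).toNat := by
  obtain ⟨b, h1, h2, h3⟩ := S.long.2 p (hrun p le_rfl hpq)
  have h4 : ¬ (b ≤ p - 1) := fun h => hp (h3 (p - 1) h (by omega) hu (by omega))
  have h5 : ¬ (q < b + s0 k) := fun h => hq (h3 q (by omega) h (by omega) hw)
  omega

/-- few non-clean times near a site outside `X` -/
theorem ms_nc_le (S : Setting k s a u w X) {t : ℤ} (h1 : u ≤ t) (h2 : t < w) (h3 : t ∉ X)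
    {o : ℤ} {l : ℕ} (h4 : |t - o| ≤ ((s0 k * 2 ^ l : ℕ) : ℤ)) {i j : ℤ}
    (hi : o - ((s0 k * 2 ^ l : ℕ) : ℤ) ≤ i) (hj : j ≤ o + ((s0 k * 2 ^ l : ℕ) : ℤ) + 1) :
    (ms (NC k s a) i j : ℝ) ≤ cδ * ((s0 k * 2 ^ l : ℕ) : ℝ) := by
  by_contra hcon
  push Not at hcon
  refine not_defect S h1 h2 h3 h4 (Or.inr (Or.inl ⟨l, rfl, ?_⟩))
  have : (ms (NC k s a) i j : ℝ) ≤ ms (NC k s a) (o - ((s0 k * 2 ^ l : ℕ) : ℤ))
      (o + ((s0 k * 2 ^ l : ℕ) : ℤ) + 1) := by exact_mod_cast ms_mono' hi hj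
  linarith

/-- growth of an environment -/
theorem env_growth (hk : Big k) (S : Setting k s a u w X) {i j : ℤ} (hu : u ≤ i) (hij : i ≤ j)
    (hw : j ≤ w) (hH : Hyp a X (9 * k) 2000000 c0 i j)
    (hX : (ms X i j : ℝ) ≤ 4 * cc * ((j - i : ℤ) : ℝ))
    (hN : (ms (NC k s a) i j : ℝ) ≤ 4 / 1000000 * ((j - i : ℤ) : ℝ)) :
    D a i j ≠ 0 ∧ 99989 / 100000 * ((j - i : ℤ) : ℝ) * Real.log k ≤ Real.log |D a i j| := by
  obtain ⟨n, rfl⟩ := Int.le.dest hij
  clear hij
  have hn : (i + (n : ℤ) - i).toNat = n := by omega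
  have hn' : ((i + (n : ℤ) - i : ℤ) : ℝ) = n := by push_cast; ring
  rw [hn'] at hX hN ⊢
  have hk1 := hk.k1
  have hk0 := hk.k0
  have hx := hk.x
  have hs := S.hs0
  set L : ℝ := k ^ (1 - ce) / 2 with hL
  have hL1 : 1 ≤ L := by
    have h1 := hk.rpow_ge (1 - ce)
    unfold ce at h1
    rw [hL]
    unfold ce
    linarith
  have hconc := (hH.2 i (i + n) le_rfl (by omega) le_rfl hH.1).1
  have hkp : 0 < k ^ (1 - ce) := Real.rpow_pos_of_pos hk0 _
  have h1 : L ^ n ≤ Wt a X i (i + n) * L ^ (ms X i (i + n) + ms (NC k s a) i (i + n)) := by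
    have := pow_le_Wt' (a := a) (X := X) (N := NC k s a) hL1 (u := i) (v := i + n) (by omega)
      (fun t h1 h2 h3 => by
        have h4 := clean_of_notMem S (by omega) (by omega) h3
        have h5 := hk.kβ
        nlinarith)
      (fun t h1 h2 h3 => by
        have h4 := le_of_notMem_nc h3
        have h5 : k ^ (1 - ce) ≤ (1 + s) * k ^ (1 - ce) := le_mul_of_one_le_left hkp.le (by linarith)
        have h6 : 2 * L = k ^ (1 - ce) := by rw [hL]; exact mul_div_cancel₀ _ two_ne_zero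
        rw [h6]
        exact h5.trans h4)
    rwa [hn] at this
  set m1 := ms X i (i + n) with hm1
  set m2 := ms (NC k s a) i (i + n) with hm2
  have hL0 : 0 < L := by linarith
  have h2 : L ^ n ≤ |D a i (i + n)| * (9 * k) ^ (2000000 * m1) * L ^ (m1 + m2) :=
    h1.trans (mul_le_mul_of_nonneg_right hconc (by positivity))
  have hD : D a i (i + n) ≠ 0 := by
    intro h0
    rw [h0, abs_zero, zero_mul, zero_mul] at h2
    have : 0 < L ^ n := by positivity
    linarith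
  refine ⟨hD, ?_⟩
  have hD0 : 0 < |D a i (i + n)| := abs_pos.2 hD
  have h3 := Real.log_le_log (by positivity) h2
  rw [Real.log_mul (by positivity) (by positivity), Real.log_mul (by positivity) (by positivity),
    Real.log_pow, Real.log_pow, Real.log_pow] at h3
  push_cast at h3
  have hlogL : Real.log L = (1 - ce) * Real.log k - Real.log 2 := by
    rw [hL, Real.log_div (by positivity) (by norm_num), Real.log_rpow hk0]
  have hlogL0 : 0 ≤ Real.log L := Real.log_nonneg hL1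
  have hl2 := Real.log_two_lt_d9
  have hl9 := hk.log_9k
  have hl90 := hk.log_9k_nonneg
  have hn0 : (0 : ℝ) ≤ n := Nat.cast_nonneg _
  have h4 : ((m1 : ℝ) + m2) * Real.log L ≤ (5 / 1000000 * n) * Real.log L := by
    apply mul_le_mul_of_nonneg_right _ hlogL0
    unfold cc at hX
    nlinarith
  have h5 : (2000000 * (m1 : ℝ)) * Real.log (9 * k) ≤
      (1 / 1000000000 * n) * (Real.log k + 8) := by
    apply mul_le_mul _ hl9 hl90 (by positivity)
    unfold cc at hX
    nlinarith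
  have h6 : (n : ℝ) * (99989 / 100000 * Real.log k) ≤
      n * ((1 - 5 / 1000000) * Real.log L - 1 / 1000000000 * (Real.log k + 8)) := by
    apply mul_le_mul_of_nonneg_left _ hn0
    rw [hlogL]
    unfold ce
    linarith
  nlinarith

end Vale.Agent.P108.H462
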