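import Vale.Agent.P108.H462.Cone

/-!
# P108, block [DET] (helper462), file 9: `Sk.DetCone`
-/

open Set

namespace Vale.Agent.P108.H462

open P108C
open Vale.Agent.P108.Sk (cβ ce cδ cd ca cP c0 cc cZ s0 Low Crit NC Peak Defect Bset Setting GoodWin
  LongZ DetCone)

variable {k s : ℝ} {a : ℤ → ℝ} {u w : ℤ} {X : Set ℤ}

/-- the square condition of `NonPeaky2` -/
theorem sq_env (hk : Big k) {r ℓ : ℕ} {y len : ℝ} (hr : 100000 ≤ r) (hℓ : 1000000 * ℓ ≤ 2 * r)
    (hy : y ≠ 0) (hlen : (r : ℝ) ≤ len) (hg : 99989 / 100000 * len * Real.log k ≤ Real.log |y|) :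
    8 * (9 * k) ^ ℓ * ((9 * k) ^ (ℓ + 3) * k ^ (ca * ((2 * r : ℕ) : ℝ))) ≤ y ^ 2 := by
  have hk0 := hk.k0
  have hkp : 0 < k ^ (ca * ((2 * r : ℕ) : ℝ)) := Real.rpow_pos_of_pos hk0 _
  have hB0 : 0 < 9 * k := by linarith
  have hy0 : 0 < |y| := abs_pos.2 hy
  rw [← sq_abs y, ← Real.log_le_log_iff (by positivity) (by positivity),
    Real.log_mul (by positivity) (by positivity), Real.log_mul (by norm_num) (by positivity),
    Real.log_mul (by positivity) hkp.ne', Real.log_pow, Real.log_pow, Real.log_rpow hk0,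
    Real.log_pow]
  have h8 := Real.log_le_sub_one_of_pos (show (0 : ℝ) < 8 by norm_num)
  have h1 := num_sq (r := r) (len := len) (l := ℓ) (l9 := Real.log (9 * k)) (l8 := Real.log 8)
    (ly := Real.log |y|) hk.x (by exact_mod_cast hr) (Nat.cast_nonneg _) (by exact_mod_cast hℓ)
    hk.log_9k (by linarith) hlen hg
  have e1 : ((ℓ + 3 : ℕ) : ℝ) = ℓ + 3 := by push_cast; ring
  have e2 : ((2 * r : ℕ) : ℝ) = 2 * r := by push_cast; ring
  have e3 : ((2 : ℕ) : ℝ) = 2 := by norm_num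
  rw [e1, e2, e3]
  exact h1

theorem grL_env (hk : Big k) {r : ℕ} {i p : ℤ} (hs0 : 0 ≤ s) (hs1 : s ≤ 1) (hr : 100000 ≤ r)
    (hlen : (r : ℝ) ≤ ((p - i : ℤ) : ℝ)) (hD : D a i p ≠ 0)
    (hA : |D a i p| ≤ 9 * k * |D a i (p - 1)|)
    (hg : 99989 / 100000 * ((p - i : ℤ) : ℝ) * Real.log k ≤ Real.log |D a i p|) :
    0 < |D a i (p - 1)| ∧ ¬ Low k s a (.gr i (p - 2)) := by
  have hk0 := hk.k0
  have hB0 : 0 < 9 * k := by linarith
  have hD1 : 0 < |D a i (p - 1)| := by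
    by_contra h
    have : |D a i (p - 1)| = 0 := le_antisymm (not_lt.1 h) (abs_nonneg _)
    rw [this, mul_zero] at hA
    exact hD (abs_nonpos_iff.1 hA)
  refine ⟨hD1, ?_⟩
  unfold Low
  rw [not_lt]
  change (1 + s) * k ^ ((1 - cd) * ((p - 2 + 1 - i : ℤ) : ℝ)) ≤ |H504.D a i (p - 2)|
  rw [D504_eq, show p - 2 + 1 = p - 1 by ring]
  have hkq : 0 < k ^ ((1 - cd) * ((p - 1 - i : ℤ) : ℝ)) := Real.rpow_pos_of_pos hk0 _
  have hs2 : Real.log (1 + s) ≤ 1 := by
    have := Real.log_le_sub_one_of_pos (show (0 : ℝ) < 1 + s by linarith)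
    linarith
  rw [← Real.log_le_log_iff (by positivity) hD1, Real.log_mul (by positivity) hkq.ne',
    Real.log_rpow hk0]
  have h1 := Real.log_le_log (abs_pos.2 hD) hA
  rw [Real.log_mul (by positivity) hD1.ne'] at h1
  have h2 : ((p - 1 - i : ℤ) : ℝ) = ((p - i : ℤ) : ℝ) - 1 := by push_cast; ring
  rw [h2]
  exact num_grL hk.x (by exact_mod_cast hr) hk.log_9k hs2 hlen (hg.trans h1)

theorem grR_env (hk : Big k) {r ℓ : ℕ} {p q j : ℤ} (hs0 : 0 ≤ s) (hs1 : s ≤ 1) (hr : 100000 ≤ r)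
    (hℓ : 1000000 * ℓ ≤ 2 * r) (hpq : q = p + ℓ)
    (hlen : (r : ℝ) ≤ ((j - q : ℤ) : ℝ)) (hD : D a q j ≠ 0)
    (hB : |D a q j| ≤ (9 * k) ^ (ℓ + 2) * |D a p j|)
    (hg : 99989 / 100000 * ((j - q : ℤ) : ℝ) * Real.log k ≤ Real.log |D a q j|) :
    0 < |D a p j| ∧ ¬ Low k s a (.gr p (j - 1)) := by
  have hk0 := hk.k0
  have hB0 : 0 < 9 * k := by linarith
  have hD1 : 0 < |D a p j| := by
    by_contra h
    have : |D a p j| = 0 := le_antisymm (not_lt.1 h) (abs_nonneg _)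
    rw [this, mul_zero] at hB
    exact hD (abs_nonpos_iff.1 hB)
  refine ⟨hD1, ?_⟩
  unfold Low
  rw [not_lt]
  change (1 + s) * k ^ ((1 - cd) * ((j - 1 + 1 - p : ℤ) : ℝ)) ≤ |H504.D a p (j - 1)|
  rw [D504_eq, show j - 1 + 1 = j by ring]
  have hkq : 0 < k ^ ((1 - cd) * ((j - p : ℤ) : ℝ)) := Real.rpow_pos_of_pos hk0 _
  have hs2 : Real.log (1 + s) ≤ 1 := by
    have := Real.log_le_sub_one_of_pos (show (0 : ℝ) < 1 + s by linarith)
    linarith
  rw [← Real.log_le_log_iff (by positivity) hD1, Real.log_mul (by positivity) hkq.ne',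
    Real.log_rpow hk0]
  have h1 := Real.log_le_log (abs_pos.2 hD) hB
  rw [Real.log_mul (by positivity) hD1.ne', Real.log_pow] at h1
  have h2 : ((j - p : ℤ) : ℝ) = ((j - q : ℤ) : ℝ) + ℓ := by rw [hpq]; push_cast; ring
  have h3 : ((ℓ + 2 : ℕ) : ℝ) = ℓ + 2 := by push_cast; ring
  rw [h3] at h1
  rw [h2]
  exact num_grR (r := r) hk.x (by exact_mod_cast hr) (Nat.cast_nonneg _) (by exact_mod_cast hℓ)
    hk.log_9k hs2 hlen (hg.trans h1)

/-- cone condition from the end ratio -/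
theorem cone_of_ratio (hk : Big k) (hs0 : 0 ≤ s) {y y' : ℝ}
    (h : (1 + s) * k ^ cβ * y' ≤ 2 * y) (hy' : 0 ≤ y') : (1 + s) * (k ^ (cβ / 2) * y') ≤ y := by
  have h1 := hk.kβ2
  rw [hk.kβ_eq] at h
  have h2 : 0 ≤ (1 + s) * (k ^ (cβ / 2) * y') := by positivity
  have h3 : 2 * ((1 + s) * (k ^ (cβ / 2) * y')) ≤ (1 + s) * (k ^ (cβ / 2) * k ^ (cβ / 2)) * y' := by
    calc 2 * ((1 + s) * (k ^ (cβ / 2) * y')) ≤ k ^ (cβ / 2) * ((1 + s) * (k ^ (cβ / 2) * y')) :=
          mul_le_mul_of_nonneg_right (by linarith) h2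
      _ = _ := by ring
  linarith

theorem cone1_of_hyp (hk : Big k) (S : Setting k s a u w X) {i j x y : ℤ} (hu : u ≤ i) (hw : j ≤ w)
    (H : Hyp a X (9 * k) 2000000 c0 i j) (hx : i ≤ x) (hxy : x ≤ y) (hy : y ≤ j)
    (hgd : Good c0 X x y) : ¬ Low k s a (.c1 x (y - 1)) := by
  unfold Low
  rw [not_lt]
  change (1 + s) * (k ^ (cβ / 2) * |H504.D a x (y - 1 - 1)|) ≤ |H504.D a x (y - 1)|
  rw [← D_eq, ← D_eq]
  refine cone_of_ratio hk S.hs0 ?_ (abs_nonneg _)
  exact H.endR (by unfold c0; norm_num) hx hxy hy hgd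
    fun t h1 h2 h3 => clean_of_notMem S (by omega) (by omega) h3

theorem cone2_of_hyp (hk : Big k) (S : Setting k s a u w X) {i j x y : ℤ} (hu : u ≤ i) (hw : j ≤ w)
    (H : Hyp a X (9 * k) 2000000 c0 i j) (hx : i ≤ x) (hxy : x ≤ y) (hy : y ≤ j)
    (hgd : Good c0 X x y) : ¬ Low k s a (.c2 x (y - 1)) := by
  unfold Low
  rw [not_lt]
  change (1 + s) * (k ^ (cβ / 2) * |H504.D a (x + 1) (y - 1)|) ≤ |H504.D a x (y - 1)|
  rw [← D_eq, ← D_eq]
  refine cone_of_ratio hk S.hs0 ?_ (abs_nonneg _)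
  exact H.endL (by unfold c0; norm_num) hx hxy hy hgd
    fun t h1 h2 h3 => clean_of_notMem S (by omega) (by omega) h3

/-- the trace of `X` on a window as a pattern -/
theorem mem_patterns_trace (S : Setting k s a u w X) {i j : ℤ} (hu : u ≤ i) (hw : j ≤ w) :
    (open Classical in (Finset.Ico i j).filter (· ∈ X)) ∈ patterns (s0 k) i j := by
  classical
  refine mem_patterns.2 ⟨fun t ht => ?_, ?_⟩
  · rw [Finset.mem_filter] at ht
    exact ht.1
  intro t ht
  rw [Finset.mem_filter, Finset.mem_Ico] at ht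
  obtain ⟨b, h1, h2, h3⟩ := S.long.2 t ht.2
  refine ⟨b, h1, h2, fun t' h4 h5 h6 h7 => ?_⟩
  rw [Finset.mem_filter, Finset.mem_Ico]
  exact ⟨⟨h6, h7⟩, h3 t' h4 h5 (by omega) (by omega)⟩

theorem ms_trace {i j x y : ℤ} (hx : i ≤ x) (hy : y ≤ j) :
    ms (↑(open Classical in (Finset.Ico i j).filter (· ∈ X)) : Set ℤ) x y = ms X x y := by
  classical
  apply ms_congr
  intro t h1 h2
  simp only [Finset.coe_filter, Finset.mem_Ico, mem_ofPred_eq]
  constructor
  · exact fun h => h.2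
  · exact fun h => ⟨⟨by omega, by omega⟩, h⟩

theorem pat_env (hk : Big k) (S : Setting k s a u w X) {p q i j : ℤ} (hu : u ≤ i) (hw : j ≤ w)
    (hip : i < p) (hpq : p < q) (hqj : q < j) (hL4 : LG (4 * cc) X i p) (hR4 : RG (4 * cc) X q j)
    (HL : Hyp a X (9 * k) 2000000 c0 i p) (HR : Hyp a X (9 * k) 2000000 c0 q j) :
    ∃ T ∈ patterns (s0 k) i (j - 1 + 1),
    (∀ y : ℕ, 1 ≤ y → i ≤ p - y → (ms (↑T) (p - y) p : ℝ) ≤ Sk.c1 * y) ∧
    (∀ y : ℕ, 1 ≤ y → q - 1 + y ≤ j - 1 → (ms (↑T) (q - 1 + 1) (q - 1 + 1 + y) : ℝ) ≤ Sk.c1 * y) ∧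
    (∀ x, i < x → x < p → (∀ y : ℕ, 1 ≤ y → i ≤ x - y → (ms (↑T) (x - y) x : ℝ) < c0 * y) →
      ¬ Low k s a (.c1 i (x - 1))) ∧
    (∀ r, q - 1 < r → r < j - 1 →
      (∀ y : ℕ, 1 ≤ y → r + y ≤ j - 1 → (ms (↑T) (r + 1) (r + 1 + y) : ℝ) < c0 * y) →
      ¬ Low k s a (.c2 (r + 1) (j - 1))) := by
  rw [sub_add_cancel, sub_add_cancel]
  refine ⟨_, mem_patterns_trace S hu hw, ?_, ?_, ?_, ?_⟩
  · intro y hy1 hy2
    rw [ms_trace (by omega) (by omega)]
    have := hL4 (p - y) hy2 (by omega)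
    have e : ((p - (p - (y : ℤ)) : ℤ) : ℝ) = y := by push_cast; ring
    rwa [e] at this
  · intro y hy1 hy2
    rw [ms_trace (by omega) (by omega)]
    have := hR4 (q + y) (by omega) (by omega)
    have e : ((q + (y : ℤ) - q : ℤ) : ℝ) = y := by push_cast; ring
    rwa [e] at this
  · intro x hx1 hx2 hx3
    refine cone1_of_hyp hk S hu (by omega) HL le_rfl hx1.le hx2.le ⟨?_, ?_⟩
    · exact HL.1.1.mono_right hx2.le
    · intro r h1 h2
      obtain ⟨y, hy⟩ := Int.le.dest h2.le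
      have := hx3 y (by omega) (by omega)
      rw [ms_trace (by omega) (by omega)] at this
      have e : x - (y : ℤ) = r := by omega
      rw [e] at this
      have e2 : ((x - r : ℤ) : ℝ) = y := by
        have : x - r = (y : ℤ) := by omega
        rw [this]; push_cast; ring
      rw [e2]
      exact this.le
  · intro r hr1 hr2 hr3
    refine cone2_of_hyp hk S (by omega) hw HR (by omega) (by omega) le_rfl ⟨?_, ?_⟩
    · intro t h1 h2
      obtain ⟨y, hy⟩ := Int.le.dest h1.le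
      have := hr3 y (by omega) (by omega)
      rw [ms_trace (by omega) (by omega)] at this
      rw [hy] at this
      have e2 : ((t - (r + 1) : ℤ) : ℝ) = y := by
        have : t - (r + 1) = (y : ℤ) := by omega
        rw [this]; push_cast; ring
      rw [e2]
      exact this.le
    · exact HR.1.2.mono_left (by omega)

theorem deep_env (hk : Big k) (hs0 : 0 ≤ s) {r : ℕ} {i p j : ℤ}
    (hdeep : |D a i j| * k ^ (ca * ((2 * r : ℕ) : ℝ)) < |D a i (p - 1)| * |D a p j|) :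
    Low k s a (.pk (2 * r) i p (j - 1)) := by
  have hk0 := hk.k0
  have hkp : 0 < k ^ (ca * ((2 * r : ℕ) : ℝ)) := Real.rpow_pos_of_pos hk0 _
  unfold Low
  change |H504.D a i (j - 1)| <
    (1 + s) * (k ^ (-(ca * ((2 * r : ℕ) : ℝ))) * (|H504.D a i (p - 2)| * |H504.D a p (j - 1)|))
  rw [D504_eq, D504_eq, D504_eq, show p - 2 + 1 = p - 1 by ring, show j - 1 + 1 = j by ring,
    Real.rpow_neg hk0.le]
  have h1 : |D a i j| < (k ^ (ca * ((2 * r : ℕ) : ℝ)))⁻¹ * (|D a i (p - 1)| * |D a p j|) := by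
    rw [inv_mul_eq_div, lt_div_iff₀ hkp]
    exact hdeep
  refine h1.trans_le ?_
  have h2 : 0 ≤ (k ^ (ca * ((2 * r : ℕ) : ℝ)))⁻¹ * (|D a i (p - 1)| * |D a p j|) := by positivity
  exact le_mul_of_one_le_left h2 (by linarith)

/-- no interior run of `X` is the core of a peak -/
theorem nonPeaky (hk : Big k) (S : Setting k s a u w X) : NonPeaky2 (theP k hk) a X u w := by
  intro p q i j hI hJ hpq hrun hpX hqX r1 r2 r3 r4 hL4 hR4 HL HR
  have hk1 := hk.k1
  have hk0 := hk.k0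
  have hs0 := S.hs0
  have hs1 := S.hs1
  -- the length and the radius
  obtain ⟨ℓ, hℓ⟩ := Int.le.dest hpq.le
  have hqp : (q - p).toNat = ℓ := by omega
  rw [hqp] at r1 r2 r3 r4 ⊢
  have hℓ1 : 1 ≤ ℓ := by omega
  have hrad1 : 1 ≤ radF k ℓ := (theP k hk).hrad1 ℓ hℓ1
  change (radF k ℓ : ℤ) ≤ p - i at r1
  change p - i ≤ 2 * (radF k ℓ : ℤ) at r2
  change (radF k ℓ : ℤ) ≤ j - q at r3
  change j - q ≤ 2 * (radF k ℓ : ℤ) at r4
  change LG (4 * cc) X i p at hL4
  change RG (4 * cc) X q j at hR4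
  change Hyp a X (9 * k) 2000000 c0 i p at HL
  change Hyp a X (9 * k) 2000000 c0 q j at HR
  have hsl : s0 k ≤ ℓ := by
    have := long_run S hpq hrun hpX hqX (by omega) (by omega)
    omega
  obtain ⟨l, hl1, hl2, hl3⟩ := radF_spec hk hsl
  have hs0g := hk.s0_ge
  change |D a i p| * |D a q j| ≤ |D a i j| * depF k ℓ ∧
    8 * (9 * k) ^ ℓ * depF k ℓ ≤ (D a i p) ^ 2 ∧ 8 * (9 * k) ^ ℓ * depF k ℓ ≤ (D a q j) ^ 2
  rw [depF_eq hsl]
  generalize radF k ℓ = r at *
  have hr5 : 100000 ≤ r := by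
    rw [hl1]
    calc 100000 ≤ s0 k * 1 := by omega
      _ ≤ s0 k * 2 ^ l := Nat.mul_le_mul_left _ Nat.one_le_two_pow
  have hpow1 : s0 k * 2 ^ (l + 1) = 2 * r := by rw [hl1, pow_succ]; ring
  have hpow2 : s0 k * 2 ^ (l + 2) = 4 * r := by rw [hl1, pow_succ, pow_succ]; ring
  rw [hpow1] at hl2
  have hℓr : 1000000 * ℓ ≤ 2 * r := hl2
  -- growth of the environments
  have hlenL : (r : ℝ) ≤ ((p - i : ℤ) : ℝ) := by exact_mod_cast r1
  have hlenR : (r : ℝ) ≤ ((j - q : ℤ) : ℝ) := by exact_mod_cast r3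
  have hNL : (ms (NC k s a) i p : ℝ) ≤ 4 / 1000000 * ((p - i : ℤ) : ℝ) := by
    have h1 := ms_nc_le S (t := p - 1) (by omega) (by omega) hpX (o := p) (l := l + 2) (i := i)
      (j := p) (by rw [hpow2, abs_le]; constructor <;> push_cast <;> omega)
      (by rw [hpow2]; push_cast; omega) (by rw [hpow2]; push_cast; omega)
    rw [hpow2] at h1
    have h2 : cδ * ((4 * r : ℕ) : ℝ) = 4 / 1000000 * r := by unfold cδ; push_cast; ring
    rw [h2] at h1
    exact h1.trans (mul_le_mul_of_nonneg_left hlenL (by norm_num))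
  have hNR : (ms (NC k s a) q j : ℝ) ≤ 4 / 1000000 * ((j - q : ℤ) : ℝ) := by
    have h1 := ms_nc_le S (t := p - 1) (by omega) (by omega) hpX (o := p) (l := l + 2) (i := q)
      (j := j) (by rw [hpow2, abs_le]; constructor <;> push_cast <;> omega)
      (by rw [hpow2]; push_cast; omega) (by rw [hpow2]; push_cast; omega)
    rw [hpow2] at h1
    have h2 : cδ * ((4 * r : ℕ) : ℝ) = 4 / 1000000 * r := by unfold cδ; push_cast; ring
    rw [h2] at h1
    exact h1.trans (mul_le_mul_of_nonneg_left hlenR (by norm_num))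
  obtain ⟨hDL, hGL⟩ := env_growth hk S hI (by omega) (by omega) HL
    (hL4 i le_rfl (by omega)) hNL
  obtain ⟨hDR, hGR⟩ := env_growth hk S (by omega) (by omega) hJ HR
    (hR4 j (by omega) le_rfl) hNR
  refine ⟨?_, sq_env hk hr5 hℓr hDL hlenL hGL, sq_env hk hr5 hℓr hDR hlenR hGR⟩
  -- no peak
  by_contra hcon
  push Not at hcon
  have hA : |D a i p| ≤ 9 * k * |D a i (p - 1)| := by
    have hβ := hk.kβ
    refine env_left (c4 := 4 * cc) (τ := k ^ cβ) (by unfold cc c0; norm_num)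
      (by unfold cc; norm_num) (by unfold c0; norm_num) (by linarith) (by omega)
      hL4 HL (fun t h1 h2 h3 => ?_) (fun t _ _ => abs_add_one_le hk S t)
    have h4 := clean_of_notMem S (by omega) (by omega) h3
    exact (le_mul_of_one_le_left (by linarith) (by linarith)).trans h4
  have hdd : 1 ≤ k ^ (ca * ((2 * r : ℕ) : ℝ)) := by
    apply Real.one_le_rpow (by linarith)
    unfold ca; positivity
  rw [← hqp] at hcon
  obtain ⟨hB, hdeep⟩ := env_deep (by linarith) hdd (by omega) hpq (by omega)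
    (fun t _ _ => abs_add_one_le hk S t) hA hcon
  rw [hqp] at hB
  obtain ⟨_, hgrL⟩ := grL_env hk hs0 hs1 hr5 hlenL hDL hA hGL
  obtain ⟨_, hgrR⟩ := grR_env hk hs0 hs1 hr5 hℓr (by omega) hlenR hDR hB hGR
  refine not_defect S (t := p - 1) (by omega) (by omega) hpX (o := p) (R := 2 * r)
    (by rw [abs_le]; constructor <;> push_cast <;> omega)
    (Or.inr (Or.inr ⟨l + 1, hpow1.symm, q - 1, i, j - 1, ?_⟩))
  obtain ⟨T, hT, t1, t2, t3, t4⟩ := pat_env hk S hI hJ (by omega) hpq (by omega) hL4 hR4 HL HR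
  exact ⟨T, hT,
    { hmn := by omega
      obj := by
        have : ((1000000 * ℓ : ℕ) : ℤ) ≤ ((2 * r : ℕ) : ℤ) := by exact_mod_cast hℓr
        unfold cP
        push_cast at this ⊢
        omega
      i1 := by push_cast; omega
      i2 := by push_cast; omega
      j1 := by push_cast; omega
      j2 := by push_cast; omega
      grL := hgrL
      grR := hgrR
      spL := t1
      spR := t2
      coneL := t3
      coneR := t4
      deep := deep_env hk hs0 hdeep }⟩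

/-- good windows of the skeleton are good windows -/
theorem good_of_goodWin {i j : ℤ} (h : GoodWin X i j) : Good c0 X i (j + 1) := by
  refine ⟨fun r h1 h2 => ?_, fun r h1 h2 => ?_⟩
  · obtain ⟨y, hy⟩ := Int.le.dest h1.le
    have := (h y (by omega) (by omega)).1
    rw [hy] at this
    have e2 : ((r - i : ℤ) : ℝ) = y := by
      have : r - i = (y : ℤ) := by omega
      rw [this]; push_cast; ring
    rw [e2]
    exact this.le
  · obtain ⟨y, hy⟩ := Int.le.dest h2.le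
    have := (h y (by omega) (by omega)).2
    have e : j + 1 - (y : ℤ) = r := by omega
    rw [e] at this
    have e2 : ((j + 1 - r : ℤ) : ℝ) = y := by
      have : j + 1 - r = (y : ℤ) := by omega
      rw [this]; push_cast; ring
    rw [e2]
    exact this.le

/-- **All good windows of the setting are hyperbolic.** -/
theorem hyp_of_setting (hk : Big k) (S : Setting k s a u w X) {i j : ℤ} (hu : u ≤ i) (hw : j ≤ w)
    (h : Good c0 X i j) : Hyp a X (9 * k) 2000000 c0 i j := by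
  have hcl : ∀ t, u ≤ t → t < w → t ∉ X → 2 * (theP k hk).g ≤ |a t| := by
    intro t h1 h2 h3
    have h4 := clean_of_notMem S h1 h2 h3
    have hβ := hk.kβ
    change 2 * (k ^ cβ / 2) ≤ |a t|
    rw [mul_div_cancel₀ _ (two_ne_zero)]
    exact (le_mul_of_one_le_left (by linarith) (by linarith [S.hs0])).trans h4
  exact hyp_of_nonPeaky2 (theP k hk) (n := (w - u).toNat) (I := u) (J := w) (by omega)
    (S.closed _) hcl (fun t _ _ => abs_add_one_le hk S t) (nonPeaky hk S) hu hw h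

/-- **[DET]** -/
theorem detCone : DetCone := by
  obtain ⟨k0, hk0⟩ := exists_big
  refine ⟨k0, fun k hk s a u w X S i j hu hij hw hgd => ?_⟩
  have hb := hk0 k hk
  have hg := good_of_goodWin hgd
  have H := hyp_of_setting hb S hu (show j + 1 ≤ w by omega) hg
  have h1 := cone1_of_hyp hb S hu (show j + 1 ≤ w by omega) H le_rfl (by omega) le_rfl hg
  have h2 := cone2_of_hyp hb S hu (show j + 1 ≤ w by omega) H le_rfl (by omega) le_rfl hg
  rw [add_sub_cancel_right] at h1 h2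
  exact ⟨h1, h2⟩

end Vale.Agent.P108.H462
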