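import Mathlib

/-!
# P108, block [DET] (helper462), file 1: continuants `D a i j` = determinant of the Jacobi matrix on
the times `[i, j)` (diagonal `a`, off-diagonal `-1`).
-/

namespace Vale.Agent.P108.H462

/-- The solution `u` of `u (t+1) = a t * u t - u (t-1)` with `u (i-1) = 0`, `u i = 1`, indexed so
that `W a i n = u (i - 1 + n)`. -/
noncomputable def W (a : ℤ → ℝ) (i : ℤ) : ℕ → ℝ
  | 0 => 0
  | 1 => 1
  | n + 2 => a (i + n) * W a i (n + 1) - W a i n

/-- Continuant of the times in `[i, j)`. -/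
noncomputable def D (a : ℤ → ℝ) (i j : ℤ) : ℝ := W a i (j - i + 1).toNat

variable {a : ℤ → ℝ}

theorem D_self (i : ℤ) : D a i i = 1 := by
  unfold D; simp [W]

theorem D_pred (i : ℤ) : D a i (i - 1) = 0 := by
  unfold D
  have : (i - 1 - i + 1).toNat = 0 := by omega
  rw [this, W]

theorem D_self_pred (i : ℤ) : D a (i + 1) i = 0 := by
  have := D_pred (a := a) (i + 1)
  rwa [add_sub_cancel_right] at this

theorem D_succ {i j : ℤ} (h : i ≤ j) : D a i (j + 1) = a j * D a i j - D a i (j - 1) := by
  unfold D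
  obtain ⟨n, rfl⟩ := Int.le.dest h
  have h1 : (i + (n : ℤ) + 1 - i + 1).toNat = n + 2 := by omega
  have h2 : (i + (n : ℤ) - i + 1).toNat = n + 1 := by omega
  have h3 : (i + (n : ℤ) - 1 - i + 1).toNat = n := by omega
  rw [h1, h2, h3, W]

theorem D_one (i : ℤ) : D a i (i + 1) = a i := by
  rw [D_succ le_rfl, D_self, D_pred]; ring

/-- concatenation -/
theorem D_concat {i p j : ℤ} (h1 : i ≤ p) (h2 : p ≤ j) :
    D a i j = D a i p * D a p j - D a i (p - 1) * D a (p + 1) j := by
  obtain ⟨n, rfl⟩ := Int.le.dest h2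
  clear h2
  induction n using Nat.strong_induction_on with
  | _ n ih =>
    match n with
    | 0 => simp [D_self, D_self_pred]
    | 1 =>
      simp only [Nat.cast_one]
      rw [D_succ h1, D_one, D_self]; ring
    | n + 2 =>
      have e1 := ih (n + 1) (by omega)
      have e2 := ih n (by omega)
      have h3 : p + ((n + 2 : ℕ) : ℤ) = p + ((n + 1 : ℕ) : ℤ) + 1 := by push_cast; ring
      have h4 : p + ((n + 1 : ℕ) : ℤ) - 1 = p + (n : ℤ) := by push_cast; ring
      rw [h3, D_succ (a := a) (i := i) (by omega), D_succ (a := a) (i := p) (by omega),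
        D_succ (a := a) (i := p + 1) (by push_cast; omega), h4, e1, e2]
      ring

/-- the Wronskian identity -/
theorem D_wronskian {i i' p : ℤ} (h1 : i ≤ i') (h2 : i' ≤ p) :
    D a i (p - 1) * D a i' p - D a i p * D a i' (p - 1) = D a i (i' - 1) := by
  obtain ⟨n, rfl⟩ := Int.le.dest h2
  clear h2
  induction n with
  | zero => simp [D_self, D_pred]
  | succ n ih =>
    have h3 : i' + ((n + 1 : ℕ) : ℤ) = i' + (n : ℤ) + 1 := by push_cast; ring
    rw [h3, D_succ (a := a) (i := i) (by omega), D_succ (a := a) (i := i') (by omega),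
      add_sub_cancel_right, ← ih]
    ring

/-- the Wronskian identity on the other side -/
theorem D_wronskian' {q j' j : ℤ} (h1 : q ≤ j') (h2 : j' ≤ j) :
    D a (q + 1) j * D a q j' - D a q j * D a (q + 1) j' = D a (j' + 1) j := by
  rcases eq_or_lt_of_le h1 with h | h
  · subst h
    rw [D_self, D_self_pred]; ring
  · rw [D_concat (a := a) h1 h2, D_concat (a := a) (i := q + 1) (p := j') (by omega) h2]
    have h3 := D_wronskian (a := a) (i := q) (i' := q + 1) (p := j') (by omega) (by omega)
    rw [add_sub_cancel_right, D_self] at h3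
    linear_combination (D a (j' + 1) j) * h3

/-- left recursion -/
theorem D_left {i j : ℤ} (h : i < j) : D a i j = a i * D a (i + 1) j - D a (i + 2) j := by
  have e : i + 1 + 1 = i + 2 := by ring
  rw [D_concat (a := a) (i := i) (p := i + 1) (by omega) (by omega), D_one, add_sub_cancel_right,
    D_self, e]
  ring

/-- three pieces -/
theorem D_triple {i p q j : ℤ} (h1 : i ≤ p) (h2 : p < q) (h3 : q ≤ j) :
    D a i j = D a i p * D a p q * D a q j - D a i (p - 1) * D a (p + 1) q * D a q j -
      D a i p * D a p (q - 1) * D a (q + 1) j +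
        D a i (p - 1) * D a (p + 1) (q - 1) * D a (q + 1) j := by
  rw [D_concat (a := a) h1 (h2.le.trans h3), D_concat (a := a) h2.le h3,
    D_concat (a := a) (i := p + 1) (p := q) (by omega) h3]
  ring

/-- trivial upper bound -/
theorem abs_D_le {M : ℝ} (hM : 1 ≤ M) {i j : ℤ} (h : ∀ t, i ≤ t → t < j → |a t| + 1 ≤ M) :
    |D a i j| ≤ M ^ (j - i).toNat := by
  rcases lt_or_ge j i with hij | hij
  · have h1 : (j - i + 1).toNat = 0 := by omega
    have h2 : (j - i).toNat = 0 := by omega
    unfold D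
    rw [h1, W, h2]
    simp
  obtain ⟨n, rfl⟩ := Int.le.dest hij
  clear hij
  have hn : (i + (n : ℤ) - i).toNat = n := by omega
  rw [hn]
  clear hn
  induction n using Nat.strong_induction_on with
  | _ n ih =>
    match n with
    | 0 => simp [D_self]
    | 1 =>
      simp only [Nat.cast_one, pow_one]
      rw [D_one]
      have := h i le_rfl (by simp)
      linarith
    | n + 2 =>
      have e1 := ih (n + 1) (by omega) fun t ht1 ht2 => h t ht1 (by push_cast at ht2 ⊢; omega)
      have e2 := ih n (by omega) fun t ht1 ht2 => h t ht1 (by push_cast at ht2 ⊢; omega)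
      have h3 : i + ((n + 2 : ℕ) : ℤ) = i + ((n + 1 : ℕ) : ℤ) + 1 := by push_cast; ring
      have h4 : i + ((n + 1 : ℕ) : ℤ) - 1 = i + (n : ℤ) := by push_cast; ring
      have h5 := h (i + ((n + 1 : ℕ) : ℤ)) (by omega) (by push_cast; omega)
      rw [h3, D_succ (by omega), h4]
      have h6 : M ^ n ≤ M ^ (n + 1) := pow_le_pow_right₀ hM (by omega)
      have h7 : 0 ≤ M ^ (n + 1) := by positivity
      calc |a (i + ((n + 1 : ℕ) : ℤ)) * D a i (i + ((n + 1 : ℕ) : ℤ)) - D a i (i + (n : ℤ))|
          ≤ |a (i + ((n + 1 : ℕ) : ℤ))| * |D a i (i + ((n + 1 : ℕ) : ℤ))| + |D a i (i + (n : ℤ))| := by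
            rw [← abs_mul]; exact abs_sub _ _
        _ ≤ |a (i + ((n + 1 : ℕ) : ℤ))| * M ^ (n + 1) + M ^ (n + 1) :=
            add_le_add (mul_le_mul_of_nonneg_left e1 (abs_nonneg _)) (e2.trans h6)
        _ = (|a (i + ((n + 1 : ℕ) : ℤ))| + 1) * M ^ (n + 1) := by ring
        _ ≤ M * M ^ (n + 1) := mul_le_mul_of_nonneg_right h5 h7
        _ = M ^ (n + 2) := by ring

/-- `D` only depends on the times in `[i, j)`. -/
theorem D_congr {b : ℤ → ℝ} {i j : ℤ} (h : ∀ t, i ≤ t → t < j → a t = b t) :
    D a i j = D b i j := by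
  rcases lt_or_ge j i with hij | hij
  · have h1 : (j - i + 1).toNat = 0 := by omega
    unfold D
    rw [h1, W, W]
  obtain ⟨n, rfl⟩ := Int.le.dest hij
  clear hij
  induction n using Nat.strong_induction_on with
  | _ n ih =>
    match n with
    | 0 => simp [D_self]
    | 1 =>
      simp only [Nat.cast_one]
      rw [D_one, D_one]
      exact h i le_rfl (by simp)
    | n + 2 =>
      have e1 := ih (n + 1) (by omega) fun t ht1 ht2 => h t ht1 (by push_cast at ht2 ⊢; omega)
      have e2 := ih n (by omega) fun t ht1 ht2 => h t ht1 (by push_cast at ht2 ⊢; omega)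
      have h3 : i + ((n + 2 : ℕ) : ℤ) = i + ((n + 1 : ℕ) : ℤ) + 1 := by push_cast; ring
      have h4 : i + ((n + 1 : ℕ) : ℤ) - 1 = i + (n : ℤ) := by push_cast; ring
      have h5 := h (i + ((n + 1 : ℕ) : ℤ)) (by omega) (by push_cast; omega)
      rw [h3, D_succ (by omega), D_succ (by omega), h4, e1, e2, h5]

end Vale.Agent.P108.H462
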