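import Vale.Agent.P108.H462.Cont
import Vale.Agent.P108.H462.Comb

/-!
# P108, block [DET] (helper462), file 3: the growth induction

A closed sparse set of bad times, clean times outside, and no component which is a peak:
then all good windows grow.
-/

open Set

namespace Vale.Agent.P108.H462

open P108C

/-- ratio bound for windows of length `n` -/
noncomputable def rho (n : ℕ) : ℝ := 2 - (1 / 2) ^ n

theorem rho_ge {n : ℕ} (h : 1 ≤ n) : 3 / 2 ≤ rho n := by
  unfold rho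
  have : ((1 : ℝ) / 2) ^ n ≤ (1 / 2) ^ 1 := pow_le_pow_of_le_one (by norm_num) (by norm_num) h
  rw [pow_one] at this
  linarith

theorem rho_pos (n : ℕ) : 0 < rho n := by
  unfold rho
  have : ((1 : ℝ) / 2) ^ n ≤ 1 := pow_le_one₀ (by norm_num) (by norm_num)
  linarith

theorem rho_le (n : ℕ) : rho n ≤ 2 := by
  unfold rho
  have : (0 : ℝ) ≤ ((1 : ℝ) / 2) ^ n := by positivity
  linarith

theorem rho_sub {m n : ℕ} (h : m < n) : (1 / 2) ^ (m + 1) ≤ rho n - rho m := by
  unfold rho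
  have h1 : ((1 : ℝ) / 2) ^ n ≤ (1 / 2) ^ (m + 1) :=
    pow_le_pow_of_le_one (by norm_num) (by norm_num) h
  rw [pow_succ] at h1 ⊢
  linarith

open Classical in
/-- weight of a time: `|a t| / 2` outside the bad set, `1` inside -/
noncomputable def wt (a : ℤ → ℝ) (X : Set ℤ) (t : ℤ) : ℝ := if t ∈ X then 1 else |a t| / 2

/-- product of the weights over `[u, v)` -/
noncomputable def Wt (a : ℤ → ℝ) (X : Set ℤ) (u v : ℤ) : ℝ := ∏ t ∈ Finset.Ico u v, wt a X t

/-- the conclusion for the window `[u, v)` -/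
def Conc (a : ℤ → ℝ) (X : Set ℤ) (B : ℝ) (Λ : ℕ) (u v : ℤ) : Prop :=
  Wt a X u v ≤ |D a u v| * B ^ (Λ * ms X u v) ∧
    |a (v - 1)| * |D a u (v - 1)| ≤ rho (v - u).toNat * |D a u v| ∧
      |a u| * |D a (u + 1) v| ≤ rho (v - u).toNat * |D a u v|

/-- a hyperbolic window -/
def Hyp (a : ℤ → ℝ) (X : Set ℤ) (B : ℝ) (Λ : ℕ) (c0 : ℝ) (i j : ℤ) : Prop :=
  Good c0 X i j ∧ ∀ u v, i ≤ u → u ≤ v → v ≤ j → Good c0 X u v → Conc a X B Λ u v

variable {a : ℤ → ℝ} {X : Set ℤ} {g c c0 : ℝ} {Λ n : ℕ}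

theorem wt_nonneg (t : ℤ) : 0 ≤ wt a X t := by
  unfold wt
  split_ifs
  · exact zero_le_one
  · positivity

theorem Wt_nonneg (u v : ℤ) : 0 ≤ Wt a X u v := Finset.prod_nonneg fun t _ => wt_nonneg t

theorem Wt_empty {u v : ℤ} (h : v ≤ u) : Wt a X u v = 1 := by
  unfold Wt
  rw [Finset.Ico_eq_empty (by omega), Finset.prod_empty]

theorem Wt_mul {u p v : ℤ} (h1 : u ≤ p) (h2 : p ≤ v) :
    Wt a X u v = Wt a X u p * Wt a X p v := by
  unfold Wt
  rw [← Finset.prod_union]
  · rw [Finset.Ico_union_Ico_eq_Ico h1 h2]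
  · rw [Finset.disjoint_left]
    intro t ht1 ht2
    rw [Finset.mem_Ico] at ht1 ht2
    omega

theorem Wt_succ {u v : ℤ} (h : u ≤ v) : Wt a X u (v + 1) = Wt a X u v * wt a X v := by
  rw [Wt_mul h (by omega)]
  congr 1
  unfold Wt
  have : Finset.Ico v (v + 1) = {v} := by
    ext t; rw [Finset.mem_Ico, Finset.mem_singleton]; omega
  rw [this, Finset.prod_singleton]

theorem Wt_full {u v : ℤ} (h : ∀ t, u ≤ t → t < v → t ∈ X) : Wt a X u v = 1 := by
  unfold Wt
  apply Finset.prod_eq_one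
  intro t ht
  rw [Finset.mem_Ico] at ht
  unfold wt
  rw [if_pos (h t ht.1 ht.2)]

/-- the weights are at least `g` outside `X` -/
theorem pow_le_Wt (hg : 1 ≤ g) {u v : ℤ} (huv : u ≤ v)
    (h : ∀ t, u ≤ t → t < v → t ∉ X → 2 * g ≤ |a t|) :
    g ^ (v - u).toNat ≤ Wt a X u v * g ^ ms X u v := by
  obtain ⟨m, rfl⟩ := Int.le.dest huv
  clear huv
  have hm : (u + (m : ℤ) - u).toNat = m := by omega
  rw [hm]
  clear hm
  induction m with
  | zero =>
    simp only [Nat.cast_zero, add_zero, pow_zero]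
    rw [Wt_empty le_rfl, one_mul]
    exact one_le_pow₀ hg
  | succ m ih =>
    have h3 : u + ((m + 1 : ℕ) : ℤ) = u + (m : ℤ) + 1 := by push_cast; ring
    have h4 := ih fun t h1 h2 h3 => h t h1 (by push_cast; omega) h3
    rw [h3, Wt_succ (by omega), ms_succ (by omega)]
    have hg0 : 0 < g := by linarith
    by_cases hX : u + (m : ℤ) ∈ X
    · rw [if_pos hX]
      unfold wt
      rw [if_pos hX, mul_one, pow_succ, pow_succ]
      calc g ^ m * g ≤ (Wt a X u (u + m) * g ^ ms X u (u + m)) * g :=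
            mul_le_mul_of_nonneg_right h4 hg0.le
        _ = _ := by ring
    · rw [if_neg hX]
      unfold wt
      rw [if_neg hX, add_zero, pow_succ]
      have h5 := h (u + m) (by omega) (by push_cast; omega) hX
      calc g ^ m * g ≤ (Wt a X u (u + m) * g ^ ms X u (u + m)) * (|a (u + m)| / 2) :=
            mul_le_mul h4 (by linarith) hg0.le (mul_nonneg (Wt_nonneg _ _) (by positivity))
        _ = _ := by ring

theorem clean_right (hg : 8 ≤ g) {u : ℤ} : ∀ m : ℕ,
    (∀ t, u ≤ t → t < u + m → t ∉ X ∧ 2 * g ≤ |a t|) →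
    Wt a X u (u + m) ≤ |D a u (u + m)| ∧
      |a (u + m - 1)| * |D a u (u + m - 1)| ≤ 3 / 2 * |D a u (u + m)| ∧
        |D a u (u + m - 1)| ≤ |D a u (u + m)| := by
  intro m
  induction m with
  | zero =>
    intro _
    simp only [Nat.cast_zero, add_zero]
    rw [D_self, D_pred, Wt_empty le_rfl, abs_zero, abs_one]
    norm_num
  | succ m ih =>
    intro h
    obtain ⟨h1, _, h2⟩ := ih fun t h1 h2 => h t h1 (by push_cast; omega)
    obtain ⟨hX, h3⟩ := h (u + m) (by omega) (by push_cast; omega)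
    have e1 : u + ((m + 1 : ℕ) : ℤ) = u + (m : ℤ) + 1 := by push_cast; ring
    rw [e1, D_succ (by omega), add_sub_cancel_right, Wt_succ (by omega)]
    unfold wt
    rw [if_neg hX]
    have h6 := abs_sub_abs_le_abs_sub (a (u + m) * D a u (u + m)) (D a u (u + m - 1))
    rw [abs_mul] at h6
    have hD : 0 ≤ |D a u (u + m)| := abs_nonneg _
    have h7 : 16 * |D a u (u + m)| ≤ |a (u + m)| * |D a u (u + m)| :=
      mul_le_mul_of_nonneg_right (by linarith) hD
    refine ⟨?_, by linarith, by linarith⟩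
    calc Wt a X u (u + m) * (|a (u + m)| / 2) ≤ |D a u (u + m)| * (|a (u + m)| / 2) :=
          mul_le_mul_of_nonneg_right h1 (by positivity)
      _ = |a (u + m)| * |D a u (u + m)| / 2 := by ring
      _ ≤ _ := by linarith

theorem clean_left (hg : 8 ≤ g) {v : ℤ} : ∀ m : ℕ, (∀ t, v - m ≤ t → t < v → 2 * g ≤ |a t|) →
    |a (v - m)| * |D a (v - m + 1) v| ≤ 3 / 2 * |D a (v - m) v| ∧
      |D a (v - m + 1) v| ≤ |D a (v - m) v| := by
  intro m
  induction m with
  | zero =>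
    intro _
    simp only [Nat.cast_zero, sub_zero]
    rw [D_self, D_self_pred, abs_zero, abs_one]
    norm_num
  | succ m ih =>
    intro h
    obtain ⟨_, h2⟩ := ih fun t h1 h2 => h t (by push_cast; omega) h2
    have h3 := h (v - ((m + 1 : ℕ) : ℤ)) le_rfl (by push_cast; omega)
    have e1 : v - ((m + 1 : ℕ) : ℤ) + 1 = v - (m : ℤ) := by push_cast; ring
    have e2 : v - ((m + 1 : ℕ) : ℤ) + 2 = v - (m : ℤ) + 1 := by push_cast; ring
    rw [D_left (i := v - ((m + 1 : ℕ) : ℤ)) (by push_cast; omega), e1, e2]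
    have h6 := abs_sub_abs_le_abs_sub (a (v - ((m + 1 : ℕ) : ℤ)) * D a (v - m) v)
      (D a (v - m + 1) v)
    rw [abs_mul] at h6
    have hD : 0 ≤ |D a (v - m) v| := abs_nonneg _
    have h7 : 16 * |D a (v - m) v| ≤ |a (v - ((m + 1 : ℕ) : ℤ))| * |D a (v - m) v| :=
      mul_le_mul_of_nonneg_right (by linarith) hD
    exact ⟨by linarith, by linarith⟩

/-- the real-variable step: transfer of the lower bound from the local windows -/
theorem real_step {x xl y yr x' xl' y' yr' z z1 z2 z3 G T P : ℝ} (hx : x ≠ 0) (hy : y ≠ 0)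
    (h1 : |xl| ≤ |x|) (h2 : |yr| ≤ |y|) (h1' : |xl'| ≤ |x'|)
    (hz1 : |z1| ≤ G) (hz2 : |z2| ≤ G) (hz3 : |z3| ≤ G)
    (hL : |xl * x' - x * xl'| * |x'| ≤ |x|) (hR : |yr * y' - y * yr'| * |y'| ≤ |y|)
    (hT : 0 < T) (hx' : T ≤ x' ^ 2) (hy' : T ≤ y' ^ 2) (hP : 0 < P)
    (hNP : |x'| * |y'| ≤
      |x' * z * y' - xl' * z1 * y' - x' * z2 * yr' + xl' * z3 * yr'| * P)
    (hbig : 8 * G * P ≤ T) :
    |x| * |y| ≤ 2 * P * |x * z * y - xl * z1 * y - x * z2 * yr + xl * z3 * yr| := by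
  have hx0 : x' ≠ 0 := by rintro rfl; norm_num at hx'; linarith
  have hy0 : y' ≠ 0 := by rintro rfl; norm_num at hy'; linarith
  have hG : 0 ≤ G := (abs_nonneg _).trans hz1
  set s := xl / x with hs
  set t := yr / y with ht
  set s' := xl' / x' with hs'
  set t' := yr' / y' with ht'
  have hs1 : |s| ≤ 1 := by rw [hs, abs_div]; exact div_le_one_of_le₀ h1 (abs_nonneg _)
  have ht1 : |t| ≤ 1 := by rw [ht, abs_div]; exact div_le_one_of_le₀ h2 (abs_nonneg _)
  have hs1' : |s'| ≤ 1 := by rw [hs', abs_div]; exact div_le_one_of_le₀ h1' (abs_nonneg _)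
  have hds : |s - s'| ≤ 1 / T := by
    have e : s - s' = (xl * x' - x * xl') / (x * x') := by
      rw [hs, hs']; field_simp
    have hxx : 0 < |x| * |x'| := mul_pos (abs_pos.2 hx) (abs_pos.2 hx0)
    rw [e, abs_div, abs_mul, div_le_div_iff₀ hxx hT, one_mul]
    have h3 : |xl * x' - x * xl'| * T ≤ |xl * x' - x * xl'| * (|x'| * |x'|) := by
      apply mul_le_mul_of_nonneg_left _ (abs_nonneg _)
      rw [abs_mul_abs_self]; nlinarith
    calc |xl * x' - x * xl'| * T ≤ (|xl * x' - x * xl'| * |x'|) * |x'| := by linarith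
      _ ≤ |x| * |x'| := mul_le_mul_of_nonneg_right hL (abs_nonneg _)
  have hdt : |t - t'| ≤ 1 / T := by
    have e : t - t' = (yr * y' - y * yr') / (y * y') := by
      rw [ht, ht']; field_simp
    have hyy : 0 < |y| * |y'| := mul_pos (abs_pos.2 hy) (abs_pos.2 hy0)
    rw [e, abs_div, abs_mul, div_le_div_iff₀ hyy hT, one_mul]
    have h3 : |yr * y' - y * yr'| * T ≤ |yr * y' - y * yr'| * (|y'| * |y'|) := by
      apply mul_le_mul_of_nonneg_left _ (abs_nonneg _)
      rw [abs_mul_abs_self]; nlinarith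
    calc |yr * y' - y * yr'| * T ≤ (|yr * y' - y * yr'| * |y'|) * |y'| := by linarith
      _ ≤ |y| * |y'| := mul_le_mul_of_nonneg_right hR (abs_nonneg _)
  set E := z - s * z1 - t * z2 + s * t * z3 with hE
  set E' := z - s' * z1 - t' * z2 + s' * t' * z3 with hE'
  have e1 : x * z * y - xl * z1 * y - x * z2 * yr + xl * z3 * yr = x * y * E := by
    rw [hE, hs, ht]; field_simp
  have e2 : x' * z * y' - xl' * z1 * y' - x' * z2 * yr' + xl' * z3 * yr' = x' * y' * E' := by
    rw [hE', hs', ht']; field_simp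
  rw [e2, abs_mul, abs_mul] at hNP
  rw [e1, abs_mul, abs_mul]
  have hxy' : 0 < |x'| * |y'| := mul_pos (abs_pos.2 hx0) (abs_pos.2 hy0)
  have hE1 : 1 ≤ |E'| * P := by
    by_contra hlt
    push Not at hlt
    have := mul_lt_mul_of_pos_left hlt hxy'
    rw [mul_one] at this
    linarith
  have hdiff : |E' - E| ≤ 4 * G / T := by
    have e3 : E' - E = (s - s') * z1 + (t - t') * z2 - (s - s') * t * z3 - s' * (t - t') * z3 := by
      rw [hE, hE']; ring
    have b1 : |(s - s') * z1| ≤ 1 / T * G := by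
      rw [abs_mul]; exact mul_le_mul hds hz1 (abs_nonneg _) (by positivity)
    have b2 : |(t - t') * z2| ≤ 1 / T * G := by
      rw [abs_mul]; exact mul_le_mul hdt hz2 (abs_nonneg _) (by positivity)
    have b3 : |(s - s') * t * z3| ≤ 1 / T * G := by
      rw [abs_mul, abs_mul]
      refine mul_le_mul ?_ hz3 (abs_nonneg _) (by positivity)
      calc |s - s'| * |t| ≤ 1 / T * 1 := mul_le_mul hds ht1 (abs_nonneg _) (by positivity)
        _ = 1 / T := mul_one _
    have b4 : |s' * (t - t') * z3| ≤ 1 / T * G := by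
      rw [abs_mul, abs_mul]
      refine mul_le_mul ?_ hz3 (abs_nonneg _) (by positivity)
      calc |s'| * |t - t'| ≤ 1 * (1 / T) := mul_le_mul hs1' hdt (abs_nonneg _) (by norm_num)
        _ = 1 / T := one_mul _
    rw [e3]
    calc |(s - s') * z1 + (t - t') * z2 - (s - s') * t * z3 - s' * (t - t') * z3|
        ≤ |(s - s') * z1| + |(t - t') * z2| + |(s - s') * t * z3| + |s' * (t - t') * z3| := by
          refine (abs_sub _ _).trans ?_
          refine add_le_add ((abs_sub _ _).trans (add_le_add (abs_add_le _ _) le_rfl)) le_rfl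
      _ ≤ 4 * G / T := by
          have : 4 * G / T = 1 / T * G + 1 / T * G + 1 / T * G + 1 / T * G := by ring
          rw [this]; linarith
  have h5 : |E' - E| * P ≤ 1 / 2 := by
    calc |E' - E| * P ≤ 4 * G / T * P := mul_le_mul_of_nonneg_right hdiff hP.le
      _ = (8 * G * P) / (2 * T) := by ring
      _ ≤ T / (2 * T) := div_le_div_of_nonneg_right hbig (by positivity)
      _ = 1 / 2 := by field_simp
  have h6 : |E'| ≤ |E| + |E' - E| := by
    have := abs_sub_abs_le_abs_sub E' E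
    linarith
  have h7 : 1 ≤ 2 * P * |E| := by
    have : |E'| * P ≤ |E| * P + |E' - E| * P := by
      have := mul_le_mul_of_nonneg_right h6 hP.le
      linarith
    linarith
  calc |x| * |y| = |x| * |y| * 1 := (mul_one _).symm
    _ ≤ |x| * |y| * (2 * P * |E|) := mul_le_mul_of_nonneg_left h7 (by positivity)
    _ = 2 * P * (|x| * |y| * |E|) := by ring

/-- growth in the squared form when the mass is at most half -/
theorem sq_of_conc {Λ' : ℕ} (hg : 1 ≤ g) {u v : ℤ}
    (h : g ^ (v - u).toNat ≤ |D a u v| * g ^ (Λ' * ms X u v))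
    (hm : 2 * (Λ' * ms X u v) ≤ (v - u).toNat) : g ^ (v - u).toNat ≤ (D a u v) ^ 2 := by
  have hg0 : 0 < g := by linarith
  have h1 : (g ^ (v - u).toNat) ^ 2 ≤ (|D a u v| * g ^ (Λ' * ms X u v)) ^ 2 :=
    pow_le_pow_left₀ (by positivity) h 2
  rw [mul_pow, sq_abs] at h1
  have h2 : (g ^ (Λ' * ms X u v)) ^ 2 ≤ g ^ (v - u).toNat := by
    rw [← pow_mul]
    exact pow_le_pow_right₀ hg (by omega)
  have h3 : (D a u v) ^ 2 * (g ^ (Λ' * ms X u v)) ^ 2 ≤ (D a u v) ^ 2 * g ^ (v - u).toNat :=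
    mul_le_mul_of_nonneg_left h2 (sq_nonneg _)
  have h4 : 0 < g ^ (v - u).toNat := by positivity
  have h5 : g ^ (v - u).toNat * g ^ (v - u).toNat ≤ (D a u v) ^ 2 * g ^ (v - u).toNat := by
    rw [← sq]; exact h1.trans h3
  exact le_of_mul_le_mul_right h5 h4

/-- growth with the small base -/
theorem Conc.pow {M : ℕ} {B : ℝ} (hg : 1 ≤ g) (hB : 0 ≤ B) (hBg : B ≤ g ^ M) {u v : ℤ}
    (huv : u ≤ v) (hcl : ∀ t, u ≤ t → t < v → t ∉ X → 2 * g ≤ |a t|)
    (h : Conc a X B Λ u v) : g ^ (v - u).toNat ≤ |D a u v| * g ^ ((M * Λ + 1) * ms X u v) := by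
  have h1 := pow_le_Wt hg huv hcl
  have h2 : B ^ (Λ * ms X u v) ≤ g ^ (M * Λ * ms X u v) := by
    calc B ^ (Λ * ms X u v) ≤ (g ^ M) ^ (Λ * ms X u v) := pow_le_pow_left₀ hB hBg _
      _ = g ^ (M * Λ * ms X u v) := by rw [← pow_mul, mul_assoc]
  calc g ^ (v - u).toNat ≤ Wt a X u v * g ^ ms X u v := h1
    _ ≤ (|D a u v| * B ^ (Λ * ms X u v)) * g ^ ms X u v :=
        mul_le_mul_of_nonneg_right h.1 (by positivity)
    _ ≤ (|D a u v| * g ^ (M * Λ * ms X u v)) * g ^ ms X u v :=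
        mul_le_mul_of_nonneg_right (mul_le_mul_of_nonneg_left h2 (abs_nonneg _)) (by positivity)
    _ = |D a u v| * g ^ ((M * Λ + 1) * ms X u v) := by ring

/-- the ratio step on one side -/
theorem ratio_step {G P T N xx yy r1 r2 w rm rn : ℝ} (hy : yy ≠ 0)
    (hr : |r2| ≤ rm * |yy|) (hw : r1 * yy - N * r2 = w) (hwb : |w| ≤ 2 * G * |xx|)
    (hNb : |xx| * |yy| ≤ 2 * P * |N|) (hT : T ≤ yy ^ 2) (hT0 : 0 < T) (hG : 0 ≤ G)
    (hb : 4 * G * P / T ≤ rn - rm) : |r1| ≤ rn * |N| := by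
  have hy0 : 0 < |yy| := abs_pos.2 hy
  have e : r1 = (N * r2 + w) / yy := by rw [← hw]; field_simp; ring
  have h1 : |r1| ≤ |N| * |r2| / |yy| + |w| / |yy| := by
    rw [e, abs_div, ← add_div]
    apply div_le_div_of_nonneg_right _ hy0.le
    calc |N * r2 + w| ≤ |N * r2| + |w| := abs_add_le _ _
      _ = |N| * |r2| + |w| := by rw [abs_mul]
  have h2 : |N| * |r2| / |yy| ≤ rm * |N| := by
    rw [div_le_iff₀ hy0]
    calc |N| * |r2| ≤ |N| * (rm * |yy|) := mul_le_mul_of_nonneg_left hr (abs_nonneg _)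
      _ = rm * |N| * |yy| := by ring
  have h3 : |w| / |yy| ≤ 4 * G * P / T * |N| := by
    rw [div_mul_eq_mul_div, div_le_div_iff₀ hy0 hT0]
    have h4 : |w| * T ≤ |w| * (|yy| * |yy|) := by
      apply mul_le_mul_of_nonneg_left _ (abs_nonneg _)
      rw [abs_mul_abs_self]; nlinarith
    have h5 : |w| * (|yy| * |yy|) ≤ (2 * G * |xx|) * (|yy| * |yy|) :=
      mul_le_mul_of_nonneg_right hwb (by positivity)
    have h6 : 2 * G * (|xx| * |yy|) * |yy| ≤ 2 * G * (2 * P * |N|) * |yy| := by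
      apply mul_le_mul_of_nonneg_right _ hy0.le
      exact mul_le_mul_of_nonneg_left hNb (by positivity)
    calc |w| * T ≤ 2 * G * (|xx| * |yy|) * |yy| := by linarith
      _ ≤ 4 * G * P * |N| * |yy| := by linarith
  have h7 : 4 * G * P / T * |N| ≤ (rn - rm) * |N| := mul_le_mul_of_nonneg_right hb (abs_nonneg _)
  linarith

end Vale.Agent.P108.H462
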