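import Vale.Agent.P108.H462.Cone2
import Vale.Agent.P108.H504.Grow
import Vale.Agent.P108.H18.Freeze
import Vale.Agent.P108.H903.Long
import Vale.Agent.P108.H972.SkDecor

/-!
# P108 (helper462): `HypSetting`, `Sk.DetGrow`, `Sk.Decor`
-/

namespace Vale.Agent.P108.H462

open Vale.Agent.P108

/-- helper504's input. -/
theorem hypSetting : H504.HypSetting 2000000 := by
  obtain ⟨k0, hk0⟩ := exists_big
  exact ⟨k0, fun k hk s a u w X S i j hui hij hjw hg =>
    hyp_of_setting (hk0 k hk) S hui (show j + 1 ≤ w by omega) (good_of_goodWin hg)⟩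

/-- **[GROW]** -/
theorem detGrow : Sk.DetGrow := H504.detGrow_of_hyp (by norm_num) hypSetting

/-- **[DECOR]** -/
theorem decor : Sk.Decor := H972.decor_of H18.freeze_of detGrow Sk.longCl

end Vale.Agent.P108.H462
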