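import Vale.Agent.P108.H462.Det

/-!
# P108, block [DET] (helper462), file 5: the growth theorem, general radii and depths
-/

open Set

namespace Vale.Agent.P108.H462

open P108C

/-- The numerical parameters of the growth induction. -/
structure Par2 where
  /-- lower bound for `|a t| / 2` outside the bad set -/
  g : ℝ
  /-- upper bound for `|a t| + 1` -/
  B : ℝ
  /-- `B ≤ g ^ M` -/
  M : ℕ
  /-- closedness threshold -/
  c : ℝ
  /-- sparseness threshold of good windows -/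
  c0 : ℝ
  /-- loss per bad time -/
  Λ : ℕ
  /-- `c0 ≤ 1 / N0` -/
  N0 : ℕ
  /-- radius of the environments of a run of a given length -/
  rad : ℕ → ℕ
  /-- depth of the peaks attached to a run of a given length -/
  dep : ℕ → ℝ
  hg : 8 ≤ g
  hgB : g ≤ B
  hBg : B ≤ g ^ M
  hc : 0 < c
  hcc : 80 * c ≤ c0
  hc0 : c0 * N0 ≤ 1
  hN : 2 * M * (Λ + 2) + 3 ≤ N0
  hrad1 : ∀ ℓ, 1 ≤ ℓ → 1 ≤ rad ℓ
  hrad2 : ∀ ℓ, 1 ≤ ℓ → 3 * rad ℓ + ℓ ≤ N0 * ℓ
  hdep1 : ∀ ℓ, 1 ≤ ℓ → 1 ≤ dep ℓ
  hdep2 : ∀ ℓ, 1 ≤ ℓ → 2 * dep ℓ ≤ B ^ (Λ * ℓ)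

variable {a : ℤ → ℝ} {X : Set ℤ}

/-- No component of `X` inside `[I, J)` is (the core of) a peak. -/
def NonPeaky2 (P : Par2) (a : ℤ → ℝ) (X : Set ℤ) (I J : ℤ) : Prop :=
  ∀ p q i' j' : ℤ, I ≤ i' → j' ≤ J → p < q → Run X p q → p - 1 ∉ X → q ∉ X →
    (P.rad (q - p).toNat : ℤ) ≤ p - i' →
    p - i' ≤ 2 * (P.rad (q - p).toNat : ℤ) →
    (P.rad (q - p).toNat : ℤ) ≤ j' - q →
    j' - q ≤ 2 * (P.rad (q - p).toNat : ℤ) →
    LG (4 * P.c) X i' p → RG (4 * P.c) X q j' →
    Hyp a X P.B P.Λ P.c0 i' p → Hyp a X P.B P.Λ P.c0 q j' →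
    |D a i' p| * |D a q j'| ≤ |D a i' j'| * P.dep (q - p).toNat ∧
      8 * P.B ^ (q - p).toNat * P.dep (q - p).toNat ≤ (D a i' p) ^ 2 ∧
      8 * P.B ^ (q - p).toNat * P.dep (q - p).toNat ≤ (D a q j') ^ 2

namespace Par2

variable (P : Par2)

theorem g_pos : 0 < P.g := by have := P.hg; linarith
theorem one_le_g : 1 ≤ P.g := by have := P.hg; linarith
theorem B_ge : 8 ≤ P.B := P.hg.trans P.hgB
theorem B_pos : 0 < P.B := by have := P.B_ge; linarith
theorem one_le_B : 1 ≤ P.B := by have := P.B_ge; linarith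

theorem M_pos : 1 ≤ P.M := by
  rcases Nat.eq_zero_or_pos P.M with h | h
  · have h1 := P.hBg
    have h2 := P.B_ge
    rw [h, pow_zero] at h1
    linarith
  · exact h

theorem N0_ge : 7 ≤ P.N0 := by
  have h1 := P.hN
  have h2 := P.M_pos
  have h3 : 1 * (0 + 2) ≤ P.M * (P.Λ + 2) := Nat.mul_le_mul h2 (by omega)
  have h4 : 2 * P.M * (P.Λ + 2) = 2 * (P.M * (P.Λ + 2)) := by ring
  omega

theorem N0_pos : 0 < P.N0 := by have := P.N0_ge; omega
theorem c0_pos : 0 < P.c0 := by have := P.hc; have := P.hcc; linarith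
theorem c0_lt : P.c0 < 1 := by
  have h1 := P.hc0
  have h2 : (7 : ℝ) ≤ P.N0 := by exact_mod_cast P.N0_ge
  have h3 := P.c0_pos
  nlinarith
theorem c_le : P.c ≤ 1 / 2 := by have := P.hcc; have := P.c0_lt; linarith

/-- mass of a good window is small -/
theorem mass_le {m : ℕ} {L : ℤ} (hL : 0 ≤ L) (h : (m : ℝ) ≤ P.c0 * (L : ℝ)) :
    (P.N0 : ℤ) * m ≤ L := by
  have h1 : (P.N0 : ℝ) * m ≤ L := by
    have h2 : (P.N0 : ℝ) * m ≤ P.N0 * (P.c0 * L) :=
      mul_le_mul_of_nonneg_left h (Nat.cast_nonneg _)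
    have h3 : (0 : ℝ) ≤ L := by exact_mod_cast hL
    have h4 := mul_le_mul_of_nonneg_right P.hc0 h3
    linarith
  exact_mod_cast h1

theorem half_mass {u v : ℤ} (huv : u ≤ v) (h : P.N0 * (ms X u v : ℤ) ≤ v - u) :
    2 * ((P.M * P.Λ + 1) * ms X u v) ≤ (v - u).toNat := by
  have h1 : 2 * (P.M * P.Λ + 1) ≤ P.N0 := by
    have h3 := P.hN
    have h4 : 2 * P.M * (P.Λ + 2) = 2 * (P.M * P.Λ) + 4 * P.M := by ring
    omega
  have h2 : 2 * ((P.M * P.Λ + 1) * ms X u v) ≤ P.N0 * ms X u v := by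
    calc 2 * ((P.M * P.Λ + 1) * ms X u v) = (2 * (P.M * P.Λ + 1)) * ms X u v := by ring
      _ ≤ P.N0 * ms X u v := Nat.mul_le_mul_right _ h1
  have h3 : ((P.N0 * ms X u v : ℕ) : ℤ) ≤ v - u := by push_cast; exact h
  omega

end Par2

theorem growth2 (P : Par2) {n : ℕ} {I J : ℤ} (hn : J - I ≤ n) (hX : NClosed P.c n X)
    (hclean : ∀ t, I ≤ t → t < J → t ∉ X → 2 * P.g ≤ |a t|)
    (hbd : ∀ t, I ≤ t → t < J → |a t| + 1 ≤ P.B)
    (hNP : NonPeaky2 P a X I J) :
    ∀ N : ℕ, ∀ u v : ℤ, I ≤ u → u ≤ v → v ≤ J → (v - u).toNat = N → Good P.c0 X u v →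
      Conc a X P.B P.Λ u v := by
  intro N
  induction N using Nat.strong_induction_on with
  | _ N ih =>
  intro u v hIu huv hvJ hN hgood
  have hg0 := P.g_pos
  have hg1 := P.one_le_g
  have hg8 := P.hg
  rcases eq_or_lt_of_le huv with huv0 | huv'
  · -- empty window
    subst huv0
    refine ⟨?_, ?_, ?_⟩
    · rw [D_self, ms_eq_zero_of_le le_rfl, Wt_empty le_rfl]
      simp
    · rw [D_pred, abs_zero, mul_zero]
      exact mul_nonneg (rho_pos _).le (abs_nonneg _)
    · rw [D_self_pred, abs_zero, mul_zero]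
      exact mul_nonneg (rho_pos _).le (abs_nonneg _)
  by_cases hex : ∃ t, u ≤ t ∧ t < v ∧ t ∈ X
  swap
  · -- clean window
    push Not at hex
    obtain ⟨m, rfl⟩ := Int.le.dest huv
    have hm : (u + (m : ℤ) - u).toNat = m := by omega
    have h1 := clean_right (X := X) hg8 (a := a) (u := u) m
      fun t ht1 ht2 => ⟨hex t ht1 ht2, hclean t (by omega) (by omega) (hex t ht1 ht2)⟩
    have h2 := (clean_left hg8 (a := a) (v := u + m) m
      fun t ht1 ht2 => hclean t (by omega) (by omega) (hex t (by omega) ht2)).1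
    rw [add_sub_cancel_right] at h2
    have h3 : 3 / 2 ≤ rho m := rho_ge (by omega)
    refine ⟨?_, ?_, ?_⟩
    · rw [ms_eq_zero (fun t ht1 ht2 => hex t ht1 ht2), mul_zero, pow_zero, mul_one]
      exact h1.1
    · rw [hm]
      exact h1.2.1.trans (mul_le_mul_of_nonneg_right h3 (abs_nonneg _))
    · rw [hm]
      exact h2.trans (mul_le_mul_of_nonneg_right h3 (abs_nonneg _))
  -- cut at the longest run
  obtain ⟨p, q, hup, hpq, hqv, hrun, hmax⟩ := exists_longest hex
  obtain ⟨hRG, hLG⟩ := hgood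
  have hu : u ∉ X := hRG.notMem huv' P.c0_lt
  have hv : v - 1 ∉ X := hLG.notMem huv' P.c0_lt
  have hup' : u < p := by
    rcases eq_or_lt_of_le hup with h | h
    · exact absurd (hrun p le_rfl hpq) (h ▸ hu)
    · exact h
  have hqv' : q < v := by
    rcases eq_or_lt_of_le hqv with h | h
    · exact absurd (hrun (q - 1) (by omega) (by omega)) (h ▸ hv)
    · exact h
  have hpX : p - 1 ∉ X := by
    intro hp
    have := hmax (p - 1) q (by omega) (by omega) hqv (by
      intro t ht1 ht2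
      rcases eq_or_lt_of_le ht1 with h | h
      · rwa [← h]
      · exact hrun t (by omega) ht2)
    omega
  have hqX : q ∉ X := by
    intro hp
    have := hmax p (q + 1) hup (by omega) (by omega) (by
      intro t ht1 ht2
      rcases eq_or_lt_of_le (show t ≤ q by omega) with h | h
      · rwa [h]
      · exact hrun t (by omega) h)
    omega
  have hc := P.hc
  have hcle := P.c_le
  have hcc := P.hcc
  have hc0 := P.c0_pos
  have hc20 : 4 * P.c ≤ P.c0 / 20 := by linarith
  have hlg4 : LG (4 * P.c) X u p :=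
    lg_of_longest hc hcle hX (by omega) hup' hpq hqv hrun hmax le_rfl
  have hrg4 : RG (4 * P.c) X q v :=
    rg_of_longest hc hcle hX (by omega) hup hpq hqv' hrun hmax le_rfl
  have hlg : LG (P.c0 / 20) X u p := lg_of_longest hc hcle hX (by omega) hup' hpq hqv hrun hmax hc20
  have hrg : RG (P.c0 / 20) X q v := rg_of_longest hc hcle hX (by omega) hup hpq hqv' hrun hmax hc20
  have hweakL : ∀ {x y : ℤ}, LG (P.c0 / 20) X x y → LG P.c0 X x y := by
    intro x y h r h1 h2
    refine (h r h1 h2).trans ?_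
    have : (0 : ℝ) ≤ ((y - r : ℤ) : ℝ) := by exact_mod_cast (by omega : 0 ≤ y - r)
    nlinarith
  have hweakR : ∀ {x y : ℤ}, RG (P.c0 / 20) X x y → RG P.c0 X x y := by
    intro x y h r h1 h2
    refine (h r h1 h2).trans ?_
    have : (0 : ℝ) ≤ ((r - x : ℤ) : ℝ) := by exact_mod_cast (by omega : 0 ≤ r - x)
    nlinarith
  have hgUP : Good P.c0 X u p := ⟨hRG.mono_right (by omega), hweakL hlg⟩
  have hgQV : Good P.c0 X q v := ⟨hweakR hrg, hLG.mono_left (by omega)⟩
  -- lengths
  obtain ⟨ℓ, hℓ⟩ := Int.le.dest hpq.le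
  have hℓ1 : 1 ≤ ℓ := by omega
  have hqp : (q - p).toNat = ℓ := by omega
  have hmassU : (P.N0 : ℤ) * ℓ ≤ q - u := by
    refine P.mass_le (by omega) ?_
    refine le_trans ?_ (hRG q (by omega) hqv)
    have h1 := ms_full (X := X) hpq.le hrun
    have h2 : ms X p q ≤ ms X u q := ms_mono' hup le_rfl
    have h3 : ℓ ≤ ms X u q := by omega
    exact_mod_cast h3
  have hmassV : (P.N0 : ℤ) * ℓ ≤ v - p := by
    refine P.mass_le (by omega) ?_
    refine le_trans ?_ (hLG p hup (by omega))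
    have h1 := ms_full (X := X) hpq.le hrun
    have h2 : ms X p q ≤ ms X p v := ms_mono' le_rfl hqv
    have h3 : ℓ ≤ ms X p v := by omega
    exact_mod_cast h3
  set R : ℕ := P.rad ℓ with hRdef
  have hRpos : 0 < R := P.hrad1 ℓ hℓ1
  have hR3 : 3 * R + ℓ ≤ P.N0 * ℓ := P.hrad2 ℓ hℓ1
  have hR3' : 3 * (R : ℤ) + ℓ ≤ P.N0 * ℓ := by exact_mod_cast hR3
  have hu3 : u + 3 * (R : ℤ) ≤ p := by omega
  have hv3 : q + 3 * (R : ℤ) ≤ v := by omega
  obtain ⟨i, hi1, hi2, hi3, hi4⟩ := exists_cut_left hRpos hc0 hlg hu3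
  obtain ⟨j, hj1, hj2, hj3, hj4⟩ := exists_cut_right hRpos hc0 hrg hv3
  have hgUI : Good P.c0 X u i := ⟨hRG.mono_right (by omega), hi3⟩
  have hgIP : Good P.c0 X i p := ⟨hi4, (hweakL hlg).mono_left (by omega)⟩
  have hgQJ : Good P.c0 X q j := ⟨(hweakR hrg).mono_right (by omega), hj3⟩
  have hgJV : Good P.c0 X j v := ⟨hj4, hLG.mono_left (by omega)⟩
  -- induction hypotheses
  have cUP := ih (p - u).toNat (by omega) u p hIu hup (by omega) rfl hgUP
  have cQV := ih (v - q).toNat (by omega) q v (by omega) hqv hvJ rfl hgQV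
  have cUI := ih (i - u).toNat (by omega) u i hIu (by omega) (by omega) rfl hgUI
  have cIP := ih (p - i).toNat (by omega) i p (by omega) (by omega) (by omega) rfl hgIP
  have cQJ := ih (j - q).toNat (by omega) q j (by omega) (by omega) (by omega) rfl hgQJ
  have cJV := ih (v - j).toNat (by omega) j v (by omega) (by omega) hvJ rfl hgJV
  have hHL : Hyp a X P.B P.Λ P.c0 i p := ⟨hgIP, fun u' v' h1 h2 h3 h4 =>
    ih (v' - u').toNat (by omega) u' v' (by omega) h2 (by omega) rfl h4⟩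
  have hHR : Hyp a X P.B P.Λ P.c0 q j := ⟨hgQJ, fun u' v' h1 h2 h3 h4 =>
    ih (v' - u').toNat (by omega) u' v' (by omega) h2 (by omega) rfl h4⟩
  have hpeak3 := hNP p q i j (by omega) (by omega) hpq hrun hpX hqX
    (by rw [hqp]; omega) (by rw [hqp]; omega) (by rw [hqp]; omega) (by rw [hqp]; omega)
    (hlg4.mono_left (by omega)) (hrg4.mono_right (by omega)) hHL hHR
  rw [hqp] at hpeak3
  obtain ⟨hpeak, hbigL, hbigR⟩ := hpeak3
  -- ratios are at most `1/4`
  have ratR : ∀ {x y : ℤ}, Conc a X P.B P.Λ x y → I ≤ x → x ≤ y → y ≤ J → Good P.c0 X x y →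
      |D a x (y - 1)| ≤ 1 / 4 * |D a x y| := by
    intro x y h hx hxy hy hgd
    rcases eq_or_lt_of_le hxy with h0 | h0
    · subst h0
      rw [D_pred, abs_zero]
      positivity
    · have h1 := hclean (y - 1) (by omega) (by omega) (hgd.2.notMem h0 P.c0_lt)
      have h2 := h.2.1
      have h3 : rho (y - x).toNat * |D a x y| ≤ 2 * |D a x y| :=
        mul_le_mul_of_nonneg_right (rho_le _) (abs_nonneg _)
      have h4 : 16 * |D a x (y - 1)| ≤ |a (y - 1)| * |D a x (y - 1)| :=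
        mul_le_mul_of_nonneg_right (by linarith) (abs_nonneg _)
      have h5 := abs_nonneg (D a x y)
      linarith
  have ratL : ∀ {x y : ℤ}, Conc a X P.B P.Λ x y → I ≤ x → x ≤ y → y ≤ J → Good P.c0 X x y →
      |D a (x + 1) y| ≤ 1 / 4 * |D a x y| := by
    intro x y h hx hxy hy hgd
    rcases eq_or_lt_of_le hxy with h0 | h0
    · subst h0
      rw [D_self_pred, abs_zero]
      positivity
    · have h1 := hclean x (by omega) (by omega) (hgd.1.notMem h0 P.c0_lt)
      have h2 := h.2.2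
      have h3 : rho (y - x).toNat * |D a x y| ≤ 2 * |D a x y| :=
        mul_le_mul_of_nonneg_right (rho_le _) (abs_nonneg _)
      have h4 : 16 * |D a (x + 1) y| ≤ |a x| * |D a (x + 1) y| :=
        mul_le_mul_of_nonneg_right (by linarith) (abs_nonneg _)
      have h5 := abs_nonneg (D a x y)
      linarith
  have rUPR := ratR cUP hIu hup (by omega) hgUP
  have rUPL := ratL cUP hIu hup (by omega) hgUP
  have rQVR := ratR cQV (by omega) hqv hvJ hgQV
  have rQVL := ratL cQV (by omega) hqv hvJ hgQV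
  have rUIR := ratR cUI hIu (by omega) (by omega) hgUI
  have rIPR := ratR cIP (by omega) (by omega) (by omega) hgIP
  have rIPL := ratL cIP (by omega) (by omega) (by omega) hgIP
  have rQJR := ratR cQJ (by omega) (by omega) (by omega) hgQJ
  have rQJL := ratL cQJ (by omega) (by omega) (by omega) hgQJ
  have rJVL := ratL cJV (by omega) (by omega) hvJ hgJV
  -- growth with the small base
  have hgpow : ∀ {x y : ℤ}, Conc a X P.B P.Λ x y → I ≤ x → x ≤ y → y ≤ J →
      P.g ^ (y - x).toNat ≤ |D a x y| * P.g ^ ((P.M * P.Λ + 1) * ms X x y) :=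
    fun {x y} h hx hxy hy => Conc.pow hg1 P.B_pos.le P.hBg hxy
      (fun t h1 h2 h3 => hclean t (by omega) (by omega) h3) h
  -- nonvanishing
  have nz : ∀ {x y : ℤ}, Conc a X P.B P.Λ x y → I ≤ x → x ≤ y → y ≤ J → D a x y ≠ 0 := by
    intro x y h hx hxy hy h0
    have h1 := hgpow h hx hxy hy
    rw [h0, abs_zero, zero_mul] at h1
    have : 0 < P.g ^ (y - x).toNat := by positivity
    linarith
  have nUP := nz cUP hIu hup (by omega)
  have nQV := nz cQV (by omega) hqv hvJ
  -- squared growth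
  have hsqL : P.g ^ (p - u).toNat ≤ (D a u p) ^ 2 :=
    sq_of_conc hg1 (hgpow cUP hIu hup (by omega)) (P.half_mass hup (P.mass_le (by omega) (hgUP.1 p hup' le_rfl)))
  have hsqR : P.g ^ (v - q).toNat ≤ (D a q v) ^ 2 :=
    sq_of_conc hg1 (hgpow cQV (by omega) hqv hvJ) (P.half_mass hqv (P.mass_le (by omega) (hgQV.1 v hqv' le_rfl)))
  -- the bound for the core
  have hB1 := P.one_le_B
  have hBg := P.hBg
  have hM := P.M_pos
  set G : ℝ := P.B ^ ℓ with hG
  have hGpos : 0 < G := by positivity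
  have hcore : ∀ x y : ℤ, p ≤ x → y ≤ q → |D a x y| ≤ G := by
    intro x y hx hy
    refine (abs_D_le hB1 fun t ht1 ht2 => hbd t (by omega) (by omega)).trans ?_
    exact pow_le_pow_right₀ hB1 (by omega)
  set Pk : ℝ := P.dep ℓ with hPk
  have hPk1 : 1 ≤ Pk := P.hdep1 ℓ hℓ1
  have hPkpos : 0 < Pk := by linarith
  have hPkB : 2 * Pk ≤ P.B ^ (P.Λ * ℓ) := P.hdep2 ℓ hℓ1
  set T : ℝ := 8 * G * Pk with hT
  have hTpos : 0 < T := by positivity
  have hBpow : ∀ m : ℕ, P.B ^ m ≤ P.g ^ (P.M * m) := fun m => by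
    rw [pow_mul]; exact pow_le_pow_left₀ (by linarith) hBg m
  -- left transfer
  have htrL : |D a u (p - 1) * D a i p - D a u p * D a i (p - 1)| * |D a i p| ≤ |D a u p| := by
    rw [D_wronskian (a := a) (i := u) (i' := i) (p := p) (by omega) (by omega)]
    have h1 := D_concat (a := a) (i := u) (p := i) (j := p) (by omega) (by omega)
    have h2 := rUIR
    have h3 := rIPL
    have h4 : |D a u i| * |D a i p| - |D a u (i - 1)| * |D a (i + 1) p| ≤ |D a u p| := by
      rw [h1, ← abs_mul, ← abs_mul]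
      exact abs_sub_abs_le_abs_sub _ _
    have h5 : |D a u (i - 1)| * |D a (i + 1) p| ≤ (1 / 4 * |D a u i|) * (1 / 4 * |D a i p|) :=
      mul_le_mul h2 h3 (abs_nonneg _) (by positivity)
    have h6 : |D a u (i - 1)| * |D a i p| ≤ (1 / 4 * |D a u i|) * |D a i p| :=
      mul_le_mul_of_nonneg_right h2 (abs_nonneg _)
    have h7 : 0 ≤ |D a u i| * |D a i p| := by positivity
    linarith
  -- right transfer
  have htrR : |D a (q + 1) v * D a q j - D a q v * D a (q + 1) j| * |D a q j| ≤ |D a q v| := by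
    rw [D_wronskian' (a := a) (q := q) (j' := j) (j := v) (by omega) (by omega)]
    have h1 := D_concat (a := a) (i := q) (p := j) (j := v) (by omega) (by omega)
    have h2 := rQJR
    have h3 := rJVL
    have h4 : |D a q j| * |D a j v| - |D a q (j - 1)| * |D a (j + 1) v| ≤ |D a q v| := by
      rw [h1, ← abs_mul, ← abs_mul]
      exact abs_sub_abs_le_abs_sub _ _
    have h5 : |D a q (j - 1)| * |D a (j + 1) v| ≤ (1 / 4 * |D a q j|) * (1 / 4 * |D a j v|) :=
      mul_le_mul h2 h3 (abs_nonneg _) (by positivity)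
    have h6 : |D a (j + 1) v| * |D a q j| ≤ (1 / 4 * |D a j v|) * |D a q j| :=
      mul_le_mul_of_nonneg_right h3 (abs_nonneg _)
    have h7 : 0 ≤ |D a q j| * |D a j v| := by positivity
    linarith
  have hquarter : ∀ {x y : ℝ}, |x| ≤ 1 / 4 * |y| → |x| ≤ |y| := fun {x y} h => by
    have := abs_nonneg y
    linarith
  have hkey : |D a u p| * |D a q v| ≤ 2 * Pk * |D a u v| := by
    rw [D_triple (a := a) (i := u) (p := p) (q := q) (j := v) hup hpq hqv]
    rw [D_triple (a := a) (i := i) (p := p) (q := q) (j := j) (by omega) hpq (by omega)] at hpeak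
    exact real_step nUP nQV (hquarter rUPR) (hquarter rQVL) (hquarter rIPR) (hcore _ _ (by omega) (by omega))
      (hcore _ _ (by omega) (by omega)) (hcore _ _ (by omega) (by omega)) htrL htrR hTpos hbigL
      hbigR hPkpos hpeak le_rfl
  have hDpos : 0 < |D a u v| := by
    have h1 : 0 < |D a u p| * |D a q v| := mul_pos (abs_pos.2 nUP) (abs_pos.2 nQV)
    have h2 : 0 < 2 * Pk * |D a u v| := h1.trans_le hkey
    exact (mul_pos_iff_of_pos_left (by positivity)).1 h2
  have hD0 : D a u v ≠ 0 := abs_pos.1 hDpos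
  -- exponents for the ratio steps
  have hexp : ∀ m : ℕ, P.N0 * ℓ ≤ m + ℓ → ∀ n' : ℕ, m < n' →
      4 * (P.B * G) * Pk / P.g ^ m ≤ rho n' - rho m := by
    intro m hm n' hn'
    refine le_trans ?_ (rho_sub hn')
    rw [div_le_iff₀ (by positivity), one_div_pow, one_div_mul_eq_div, le_div_iff₀ (by positivity)]
    have hE : 2 * (P.M * (ℓ + P.Λ * ℓ + 1) + 1) ≤ m := by
      have h1 := P.hN
      have h3 : P.M * (ℓ + P.Λ * ℓ + 1) ≤ P.M * ((P.Λ + 2) * ℓ) := by
        apply Nat.mul_le_mul_left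
        have h5 : (P.Λ + 2) * ℓ = P.Λ * ℓ + 2 * ℓ := by ring
        omega
      have h4 : (2 * P.M * (P.Λ + 2) + 3) * ℓ ≤ P.N0 * ℓ := Nat.mul_le_mul_right _ h1
      have h5 : (2 * P.M * (P.Λ + 2) + 3) * ℓ =
          2 * (P.M * ((P.Λ + 2) * ℓ)) + 3 * ℓ := by ring
      omega
    calc 4 * (P.B * G) * Pk * 2 ^ (m + 1)
        = 4 * (P.B * G) * (2 * Pk) * 2 ^ m := by ring
      _ ≤ 4 * (P.B * G) * P.B ^ (P.Λ * ℓ) * 2 ^ m := by gcongr
      _ = 4 * P.B ^ (ℓ + P.Λ * ℓ + 1) * 2 ^ m := by rw [hG]; ring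
      _ ≤ P.g * P.g ^ (P.M * (ℓ + P.Λ * ℓ + 1)) * 2 ^ m := by
          apply mul_le_mul_of_nonneg_right _ (by positivity)
          exact mul_le_mul (by linarith) (hBpow _) (by positivity) (by linarith)
      _ = P.g ^ (P.M * (ℓ + P.Λ * ℓ + 1) + 1) * 2 ^ m := by rw [pow_succ]; ring
      _ ≤ P.g ^ m := by
          refine le_of_sq_le_sq ?_ (by positivity)
          rw [mul_pow, ← pow_mul, ← pow_mul, ← pow_mul]
          calc P.g ^ ((P.M * (ℓ + P.Λ * ℓ + 1) + 1) * 2) * 2 ^ (m * 2) ≤ P.g ^ m * P.g ^ m := by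
                apply mul_le_mul
                · exact pow_le_pow_right₀ hg1 (by omega)
                · rw [mul_comm m 2, pow_mul]
                  exact pow_le_pow_left₀ (by norm_num) (by linarith) m
                · positivity
                · positivity
            _ = P.g ^ (m * 2) := by rw [← pow_add]; congr 1; ring
  refine ⟨?_, ?_, ?_⟩
  · -- growth
    have hmsum : ms X u v = ms X u p + ℓ + ms X q v := by
      rw [ms_add hup (hpq.le.trans hqv), ms_add hpq.le hqv]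
      have := ms_full (X := X) hpq.le hrun
      omega
    rw [hmsum, Wt_mul hup (hpq.le.trans hqv), Wt_mul hpq.le hqv, Wt_full hrun, one_mul]
    have h1 : Wt a X u p * Wt a X q v ≤
        (|D a u p| * P.B ^ (P.Λ * ms X u p)) * (|D a q v| * P.B ^ (P.Λ * ms X q v)) :=
      mul_le_mul cUP.1 cQV.1 (Wt_nonneg _ _) (by positivity)
    have h2 : 2 * Pk ≤ P.B ^ (P.Λ * ℓ) := hPkB
    calc Wt a X u p * Wt a X q v
        ≤ (|D a u p| * P.B ^ (P.Λ * ms X u p)) * (|D a q v| * P.B ^ (P.Λ * ms X q v)) := h1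
      _ = (|D a u p| * |D a q v|) * (P.B ^ (P.Λ * ms X u p) * P.B ^ (P.Λ * ms X q v)) := by ring
      _ ≤ (2 * Pk * |D a u v|) * (P.B ^ (P.Λ * ms X u p) * P.B ^ (P.Λ * ms X q v)) :=
          mul_le_mul_of_nonneg_right hkey (by positivity)
      _ = |D a u v| * (P.B ^ (P.Λ * ms X u p) * P.B ^ (P.Λ * ms X q v)) * (2 * Pk) := by ring
      _ ≤ |D a u v| * (P.B ^ (P.Λ * ms X u p) * P.B ^ (P.Λ * ms X q v)) * P.B ^ (P.Λ * ℓ) :=
          mul_le_mul_of_nonneg_left h2 (by positivity)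
      _ = |D a u v| * P.B ^ (P.Λ * (ms X u p + ℓ + ms X q v)) := by ring
  · -- right ratio
    have hw : D a u (v - 1) * D a q v - D a u v * D a q (v - 1) = D a u (q - 1) :=
      D_wronskian (by omega) hqv
    have hwb : |D a u (q - 1)| ≤ 2 * G * |D a u p| := by
      rw [D_concat (a := a) (i := u) (p := p) (j := q - 1) hup (by omega)]
      have h1 := hcore p (q - 1) le_rfl (by omega)
      have h2 := hcore (p + 1) (q - 1) (by omega) (by omega)
      have h3 := hquarter rUPR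
      calc |D a u p * D a p (q - 1) - D a u (p - 1) * D a (p + 1) (q - 1)|
          ≤ |D a u p * D a p (q - 1)| + |D a u (p - 1) * D a (p + 1) (q - 1)| := abs_sub _ _
        _ = |D a u p| * |D a p (q - 1)| + |D a u (p - 1)| * |D a (p + 1) (q - 1)| := by
            rw [abs_mul, abs_mul]
        _ ≤ |D a u p| * G + |D a u p| * G :=
            add_le_add (mul_le_mul_of_nonneg_left h1 (abs_nonneg _))
              (mul_le_mul h3 h2 (abs_nonneg _) (abs_nonneg _))
        _ = 2 * G * |D a u p| := by ring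
    have hav : |a (v - 1)| ≤ P.B := by have := hbd (v - 1) (by omega) (by omega); linarith
    have hw' : a (v - 1) * D a u (v - 1) * D a q v - D a u v * (a (v - 1) * D a q (v - 1)) =
        a (v - 1) * D a u (q - 1) := by rw [← hw]; ring
    have hwb' : |a (v - 1) * D a u (q - 1)| ≤ 2 * (P.B * G) * |D a u p| := by
      rw [abs_mul]
      calc |a (v - 1)| * |D a u (q - 1)| ≤ P.B * (2 * G * |D a u p|) :=
            mul_le_mul hav hwb (abs_nonneg _) (by positivity)
        _ = _ := by ring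
    rw [← abs_mul]
    refine ratio_step (T := P.g ^ (v - q).toNat) nQV (by rw [abs_mul]; exact cQV.2.1) hw' hwb' hkey
      hsqR (by positivity) (by positivity) ?_
    exact hexp (v - q).toNat (by omega) _ (by omega)
  · -- left ratio
    have hw : D a (u + 1) v * D a u p - D a u v * D a (u + 1) p = D a (p + 1) v :=
      D_wronskian' (by omega) (by omega)
    have hwb : |D a (p + 1) v| ≤ 2 * G * |D a q v| := by
      rw [D_concat (a := a) (i := p + 1) (p := q) (j := v) (by omega) hqv]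
      have h1 := hcore (p + 1) q (by omega) le_rfl
      have h2 := hcore (p + 1) (q - 1) (by omega) (by omega)
      have h3 := hquarter rQVL
      calc |D a (p + 1) q * D a q v - D a (p + 1) (q - 1) * D a (q + 1) v|
          ≤ |D a (p + 1) q * D a q v| + |D a (p + 1) (q - 1) * D a (q + 1) v| := abs_sub _ _
        _ = |D a (p + 1) q| * |D a q v| + |D a (p + 1) (q - 1)| * |D a (q + 1) v| := by
            rw [abs_mul, abs_mul]
        _ ≤ G * |D a q v| + G * |D a q v| :=
            add_le_add (mul_le_mul_of_nonneg_right h1 (abs_nonneg _))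
              (mul_le_mul h2 h3 (abs_nonneg _) (by positivity))
        _ = 2 * G * |D a q v| := by ring
    have hkey' : |D a q v| * |D a u p| ≤ 2 * Pk * |D a u v| := by rw [mul_comm]; exact hkey
    have hau : |a u| ≤ P.B := by have := hbd u (by omega) (by omega); linarith
    have hw' : a u * D a (u + 1) v * D a u p - D a u v * (a u * D a (u + 1) p) =
        a u * D a (p + 1) v := by rw [← hw]; ring
    have hwb' : |a u * D a (p + 1) v| ≤ 2 * (P.B * G) * |D a q v| := by
      rw [abs_mul]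
      calc |a u| * |D a (p + 1) v| ≤ P.B * (2 * G * |D a q v|) :=
            mul_le_mul hau hwb (abs_nonneg _) (by positivity)
        _ = _ := by ring
    rw [← abs_mul]
    refine ratio_step (T := P.g ^ (p - u).toNat) nUP (by rw [abs_mul]; exact cUP.2.2) hw' hwb' hkey'
      hsqL (by positivity) (by positivity) ?_
    exact hexp (p - u).toNat (by omega) _ (by omega)

/-- All windows of a non-peaky region are hyperbolic. -/
theorem hyp_of_nonPeaky2 (P : Par2) {n : ℕ} {I J : ℤ} (hn : J - I ≤ n) (hX : NClosed P.c n X)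
    (hclean : ∀ t, I ≤ t → t < J → t ∉ X → 2 * P.g ≤ |a t|)
    (hbd : ∀ t, I ≤ t → t < J → |a t| + 1 ≤ P.B)
    (hNP : NonPeaky2 P a X I J) {i j : ℤ} (hi : I ≤ i) (hj : j ≤ J) (h : Good P.c0 X i j) :
    Hyp a X P.B P.Λ P.c0 i j :=
  ⟨h, fun u v h1 h2 h3 h4 => growth2 P hn hX hclean hbd hNP _ u v (by omega) h2 (by omega) rfl h4⟩

end Vale.Agent.P108.H462
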