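import Vale.Agent.P108.H462.Growth2

/-!
# P108, block [DET] (helper462), file 6: algebra at a peak
-/

open Set

namespace Vale.Agent.P108.H462

open P108C

variable {a : ℤ → ℝ} {X : Set ℤ} {B c0 τ : ℝ} {Λ : ℕ} {i j u v : ℤ}

/-- end ratio at the right end of a good window -/
theorem Hyp.endR (hc0 : c0 < 1) (h : Hyp a X B Λ c0 i j) (hu : i ≤ u) (huv : u ≤ v)
    (hv : v ≤ j) (hgd : Good c0 X u v) (hcl : ∀ t, i ≤ t → t < j → t ∉ X → τ ≤ |a t|) :
    τ * |D a u (v - 1)| ≤ 2 * |D a u v| := by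
  rcases eq_or_lt_of_le huv with h0 | h0
  · subst h0
    rw [D_pred, abs_zero, mul_zero]
    positivity
  · have h1 := hcl (v - 1) (by omega) (by omega) (hgd.2.notMem h0 hc0)
    have h2 := (h.2 u v hu huv hv hgd).2.1
    have h3 : rho (v - u).toNat * |D a u v| ≤ 2 * |D a u v| :=
      mul_le_mul_of_nonneg_right (rho_le _) (abs_nonneg _)
    have h4 : τ * |D a u (v - 1)| ≤ |a (v - 1)| * |D a u (v - 1)| :=
      mul_le_mul_of_nonneg_right h1 (abs_nonneg _)
    linarith

/-- end ratio at the left end of a good window -/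
theorem Hyp.endL (hc0 : c0 < 1) (h : Hyp a X B Λ c0 i j) (hu : i ≤ u) (huv : u ≤ v)
    (hv : v ≤ j) (hgd : Good c0 X u v) (hcl : ∀ t, i ≤ t → t < j → t ∉ X → τ ≤ |a t|) :
    τ * |D a (u + 1) v| ≤ 2 * |D a u v| := by
  rcases eq_or_lt_of_le huv with h0 | h0
  · subst h0
    rw [D_self_pred, abs_zero, mul_zero]
    positivity
  · have h1 := hcl u (by omega) (by omega) (hgd.1.notMem h0 hc0)
    have h2 := (h.2 u v hu huv hv hgd).2.2
    have h3 : rho (v - u).toNat * |D a u v| ≤ 2 * |D a u v| :=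
      mul_le_mul_of_nonneg_right (rho_le _) (abs_nonneg _)
    have h4 : τ * |D a (u + 1) v| ≤ |a u| * |D a (u + 1) v| :=
      mul_le_mul_of_nonneg_right h1 (abs_nonneg _)
    linarith

/-- `|D i p| ≤ B |D i (p - 1)|` if the left environment is sparse near `p` -/
theorem env_left {c4 : ℝ} {p : ℤ} (hc4 : 2 * c4 ≤ c0) (hc40 : 0 ≤ c4) (hc0 : c0 < 1) (hτ : 2 ≤ τ)
    (hip : i < p) (hL : LG c4 X i p) (h : Hyp a X B Λ c0 i p)
    (hcl : ∀ t, i ≤ t → t < p → t ∉ X → τ ≤ |a t|)
    (hbd : ∀ t, i ≤ t → t < p → |a t| + 1 ≤ B) : |D a i p| ≤ B * |D a i (p - 1)| := by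
  have hgd : Good c0 X i (p - 1) := by
    refine ⟨h.1.1.mono_right (by omega), ?_⟩
    intro r h1 h2
    have h3 := hL r h1 (by omega)
    have h4 : (ms X r (p - 1) : ℝ) ≤ ms X r p := by
      exact_mod_cast ms_mono' (X := X) le_rfl (by omega)
    have h5 : ((p - r : ℤ) : ℝ) ≤ 2 * ((p - 1 - r : ℤ) : ℝ) := by
      exact_mod_cast (by omega : p - r ≤ 2 * (p - 1 - r))
    have h6 : (0 : ℝ) ≤ ((p - 1 - r : ℤ) : ℝ) := by exact_mod_cast (by omega : 0 ≤ p - 1 - r)
    nlinarith
  have h1 := h.endR hc0 le_rfl (by omega) (by omega) hgd hcl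
  have h2 : |D a i (p - 1 - 1)| ≤ |D a i (p - 1)| := by
    have h3 := abs_nonneg (D a i (p - 1 - 1))
    nlinarith
  have h3 : D a i p = a (p - 1) * D a i (p - 1) - D a i (p - 1 - 1) := by
    have := D_succ (a := a) (i := i) (j := p - 1) (by omega)
    rwa [sub_add_cancel] at this
  have h4 := hbd (p - 1) (by omega) (by omega)
  have h5 : |a (p - 1)| * |D a i (p - 1)| + |D a i (p - 1)| ≤ B * |D a i (p - 1)| := by
    have := mul_le_mul_of_nonneg_right h4 (abs_nonneg (D a i (p - 1)))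
    linarith
  rw [h3]
  calc |a (p - 1) * D a i (p - 1) - D a i (p - 1 - 1)|
      ≤ |a (p - 1) * D a i (p - 1)| + |D a i (p - 1 - 1)| := abs_sub _ _
    _ = |a (p - 1)| * |D a i (p - 1)| + |D a i (p - 1 - 1)| := by rw [abs_mul]
    _ ≤ B * |D a i (p - 1)| := by linarith

/-- at a peak the window containing the core on its left side is not too small -/
theorem env_right {p q : ℤ} {dep : ℝ} (hB : 8 ≤ B) (hip : i ≤ p) (hpq : p < q) (hqj : q ≤ j)
    (hbd : ∀ t, p ≤ t → t < q → |a t| + 1 ≤ B)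
    (hA : |D a i p| ≤ B * |D a i (p - 1)|)
    (hpk : |D a i j| * dep < |D a i p| * |D a q j|)
    (hdep : 2 * B ^ ((q - p).toNat + 1) ≤ dep) :
    |D a q j| ≤ B ^ ((q - p).toNat + 2) * |D a p j| := by
  have hB0 : 0 < B := by linarith
  set ℓ := (q - p).toNat with hℓ
  have hdep0 : 0 < dep := lt_of_lt_of_le (by positivity) hdep
  set y := |D a q j| with hy
  set α := |D a p j| with hα
  set β := |D a (p + 1) j| with hβ
  have hy0 : 0 ≤ y := abs_nonneg _
  have hα0 : 0 ≤ α := abs_nonneg _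
  have hβ0 : 0 ≤ β := abs_nonneg _
  have hBl : (1 : ℝ) ≤ B ^ ℓ := one_le_pow₀ (by linarith)
  -- backward transfer
  have h1 : y ≤ B ^ ℓ * (α + β) := by
    have hw := D_wronskian' (a := a) (q := p) (j' := q - 1) (j := j) (by omega) (by omega)
    rw [sub_add_cancel] at hw
    have e1 : |D a p (q - 1)| ≤ B ^ ℓ :=
      (abs_D_le (by linarith) fun t h1 h2 => hbd t h1 (by omega)).trans
        (pow_le_pow_right₀ (by linarith) (by omega))
    have e2 : |D a (p + 1) (q - 1)| ≤ B ^ ℓ :=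
      (abs_D_le (by linarith) fun t h1 h2 => hbd t (by omega) (by omega)).trans
        (pow_le_pow_right₀ (by linarith) (by omega))
    calc y = |D a (p + 1) j * D a p (q - 1) - D a p j * D a (p + 1) (q - 1)| := by rw [hw]
      _ ≤ |D a (p + 1) j * D a p (q - 1)| + |D a p j * D a (p + 1) (q - 1)| := abs_sub _ _
      _ = β * |D a p (q - 1)| + α * |D a (p + 1) (q - 1)| := by rw [abs_mul, abs_mul]
      _ ≤ β * B ^ ℓ + α * B ^ ℓ :=
          add_le_add (mul_le_mul_of_nonneg_left e1 hβ0) (mul_le_mul_of_nonneg_left e2 hα0)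
      _ = B ^ ℓ * (α + β) := by ring
  -- the peak
  have hx0 : 0 < |D a i p| := by
    rcases eq_or_lt_of_le (abs_nonneg (D a i p)) with h | h
    · rw [← h, zero_mul] at hpk
      have : 0 ≤ |D a i j| * dep := by positivity
      linarith
    · exact h
  have hx1 : 0 < |D a i (p - 1)| := by
    by_contra hcon
    have : |D a i (p - 1)| = 0 := le_antisymm (not_lt.1 hcon) (abs_nonneg _)
    rw [this, mul_zero] at hA
    linarith
  have h2 : D a i j = D a i p * D a p j - D a i (p - 1) * D a (p + 1) j :=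
    D_concat hip (by omega)
  have h3 : |D a i (p - 1)| * β ≤ |D a i p| * α + |D a i j| := by
    have : D a i (p - 1) * D a (p + 1) j = D a i p * D a p j - D a i j := by rw [h2]; ring
    calc |D a i (p - 1)| * β = |D a i p * D a p j - D a i j| := by rw [← this, abs_mul]
      _ ≤ |D a i p * D a p j| + |D a i j| := abs_sub _ _
      _ = |D a i p| * α + |D a i j| := by rw [abs_mul]
  have h4 : |D a i j| ≤ |D a i p| * y / dep := by
    rw [le_div_iff₀ hdep0]; exact hpk.le
  have h5 : |D a i (p - 1)| * β ≤ |D a i (p - 1)| * (B * (α + y / dep)) := by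
    calc |D a i (p - 1)| * β ≤ |D a i p| * α + |D a i p| * y / dep := h3.trans (by linarith)
      _ = |D a i p| * (α + y / dep) := by ring
      _ ≤ (B * |D a i (p - 1)|) * (α + y / dep) :=
          mul_le_mul_of_nonneg_right hA (by positivity)
      _ = _ := by ring
  have h6 : β ≤ B * (α + y / dep) := le_of_mul_le_mul_left h5 hx1
  -- conclusion
  have h7 : B ^ ℓ * (B * (y / dep)) ≤ y / 2 := by
    have e : B ^ ℓ * (B * (y / dep)) = (B ^ (ℓ + 1) * y) / dep := by rw [pow_succ]; ring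
    rw [e, div_le_iff₀ hdep0]
    have := mul_le_mul_of_nonneg_right hdep hy0
    nlinarith
  have h8 : y ≤ 2 * (B ^ ℓ * (α + B * α)) := by
    have e : B ^ ℓ * (α + B * (α + y / dep)) =
        B ^ ℓ * (α + B * α) + B ^ ℓ * (B * (y / dep)) := by ring
    have := mul_le_mul_of_nonneg_left (add_le_add_right h6 α) (by positivity : 0 ≤ B ^ ℓ)
    linarith
  calc y ≤ 2 * (B ^ ℓ * (α + B * α)) := h8
    _ = (2 * (1 + B)) * (B ^ ℓ * α) := by ring
    _ ≤ B ^ 2 * (B ^ ℓ * α) := by
        apply mul_le_mul_of_nonneg_right _ (by positivity)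
        nlinarith
    _ = B ^ (ℓ + 2) * α := by ring

/-- the deep inequality with the frozen site `p - 1` -/
theorem env_deep {p q : ℤ} {dd : ℝ} (hB : 8 ≤ B) (hdd : 1 ≤ dd) (hip : i ≤ p) (hpq : p < q)
    (hqj : q ≤ j) (hbd : ∀ t, p ≤ t → t < q → |a t| + 1 ≤ B)
    (hA : |D a i p| ≤ B * |D a i (p - 1)|)
    (hpk : |D a i j| * (B ^ ((q - p).toNat + 3) * dd) < |D a i p| * |D a q j|) :
    |D a q j| ≤ B ^ ((q - p).toNat + 2) * |D a p j| ∧
      |D a i j| * dd < |D a i (p - 1)| * |D a p j| := by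
  have hB0 : 0 < B := by linarith
  have h1 : |D a q j| ≤ B ^ ((q - p).toNat + 2) * |D a p j| := by
    refine env_right hB hip hpq hqj hbd hA hpk ?_
    calc 2 * B ^ ((q - p).toNat + 1) ≤ B * B ^ ((q - p).toNat + 1) := by gcongr; linarith
      _ = B ^ ((q - p).toNat + 2) * 1 := by ring
      _ ≤ B ^ ((q - p).toNat + 3) * dd := by
          apply mul_le_mul _ hdd zero_le_one (by positivity)
          exact pow_le_pow_right₀ (by linarith) (by omega)
  refine ⟨h1, ?_⟩
  have h2 : |D a i p| * |D a q j| ≤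
      (B * |D a i (p - 1)|) * (B ^ ((q - p).toNat + 2) * |D a p j|) :=
    mul_le_mul hA h1 (abs_nonneg _) (by positivity)
  have h3 : B ^ ((q - p).toNat + 3) * (|D a i j| * dd) <
      B ^ ((q - p).toNat + 3) * (|D a i (p - 1)| * |D a p j|) := by
    calc B ^ ((q - p).toNat + 3) * (|D a i j| * dd)
        = |D a i j| * (B ^ ((q - p).toNat + 3) * dd) := by ring
      _ < |D a i p| * |D a q j| := hpk
      _ ≤ _ := h2
      _ = _ := by ring
  exact lt_of_mul_lt_mul_left h3 (by positivity)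

end Vale.Agent.P108.H462
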